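import Mathlib

namespace Vale.Agent.P050
open Module

/-- fibre counting, upper bound -/
lemma fib {α β : Type*} [Finite α] [Finite β] (S : Set α) (T : Set β) (f : α → β) (B : ℕ)
    (hf : ∀ x ∈ S, f x ∈ T) (hB : ∀ x0 ∈ S, {x | x ∈ S ∧ f x = f x0}.ncard ≤ B) :
    S.ncard ≤ B * T.ncard := by
  classical
  have := Fintype.ofFinite α
  have := Fintype.ofFinite β
  rw [Set.ncard_eq_toFinset_card' S, Set.ncard_eq_toFinset_card' T]
  apply Finset.card_le_mul_card_image_of_maps_to (f := f)
  · intro a ha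
    simp only [Set.mem_toFinset] at ha ⊢
    exact hf a ha
  · intro b _
    by_cases h : ∃ x0 ∈ S, f x0 = b
    · obtain ⟨x0, hx0, rfl⟩ := h
      have := hB x0 hx0
      rw [Set.ncard_eq_toFinset_card'] at this
      refine le_trans (le_of_eq ?_) this
      congr 1
      ext x
      simp
    · rw [Finset.card_eq_zero.2]
      · exact Nat.zero_le _
      · rw [Finset.filter_eq_empty_iff]
        intro x hx hxb
        exact h ⟨x, by simpa using hx, hxb⟩

/-- fibre counting, lower bound -/
lemma fib_lower {α β : Type*} [Finite α] [Finite β] (S : Set α) (T : Set β) (f : α → β) (B : ℕ)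
    (hf : ∀ x ∈ S, f x ∈ T) (hB : ∀ t ∈ T, B ≤ {x | x ∈ S ∧ f x = t}.ncard) :
    B * T.ncard ≤ S.ncard := by
  classical
  have := Fintype.ofFinite α
  have := Fintype.ofFinite β
  rw [Set.ncard_eq_toFinset_card' S, Set.ncard_eq_toFinset_card' T]
  apply Finset.mul_card_image_le_card_of_maps_to (f := f)
  · intro a ha
    simp only [Set.mem_toFinset] at ha ⊢
    exact hf a ha
  · intro b hb
    have := hB b (by simpa using hb)
    rw [Set.ncard_eq_toFinset_card'] at this
    refine le_trans this (le_of_eq ?_)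
    congr 1
    ext x
    simp

variable {F : Type} [Field F] [Fintype F]

lemma two_le_q : 2 ≤ Fintype.card F := Fintype.one_lt_card

section
variable {V : Type} [AddCommGroup V] [Module F V] [Finite V]

instance finSub : Finite (Submodule F V) :=
  Finite.of_injective (fun U : Submodule F V => (U : Set V)) SetLike.coe_injective

lemma ncard_sub (U : Submodule F V) : (U : Set V).ncard = Fintype.card F ^ finrank F U := by
  have : Module.Finite F V := Module.Finite.of_finite
  have h := Module.natCard_eq_pow_finrank (K := F) (V := U)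
  rw [Nat.card_eq_fintype_card (α := F)] at h
  rw [← h]
  rfl

lemma sub_count_aux (T : Submodule F V) (d : ℕ) (e : ℕ) : ∀ S : Submodule F V,
    d - finrank F S = e →
    {U : Submodule F V | S ≤ U ∧ U ≤ T ∧ finrank F U = d}.ncard ≤
      2 ^ e * Fintype.card F ^ (e * (finrank F T - d)) := by
  have : Module.Finite F V := Module.Finite.of_finite
  induction e with
  | zero =>
    intro S hS
    simp only [pow_zero, zero_mul, mul_one]
    rw [Set.ncard_le_one_iff_subsingleton]
    intro U hU U' hU'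
    have h1 : S = U := Submodule.eq_of_le_of_finrank_le hU.1 (by rw [hU.2.2]; omega)
    have h2 : S = U' := Submodule.eq_of_le_of_finrank_le hU'.1 (by rw [hU'.2.2]; omega)
    rw [← h1, ← h2]
  | succ e ih =>
    intro S hS
    set q := Fintype.card F with hq
    have hq2 : 2 ≤ q := two_le_q
    set A := {U : Submodule F V | S ≤ U ∧ U ≤ T ∧ finrank F U = d} with hA
    by_cases hne : A.Nonempty
    swap
    · rw [Set.not_nonempty_iff_eq_empty.1 hne]; simp
    obtain ⟨U0, hU0⟩ := hne
    have hdT : d ≤ finrank F T := by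
      rw [← hU0.2.2]; exact Submodule.finrank_mono hU0.2.1
    set P : Set (Submodule F V × V) := {p | p.1 ∈ A ∧ p.2 ∈ p.1 ∧ p.2 ∉ S} with hP
    have hlow : (q ^ d - q ^ finrank F S) * A.ncard ≤ P.ncard := by
      apply fib_lower P A Prod.fst
      · intro x hx; exact hx.1
      · intro U hU
        have h1 : ((U : Set V) \ (S : Set V)).ncard = q ^ d - q ^ finrank F S := by
          rw [Set.ncard_diff (show (S : Set V) ⊆ U from hU.1), ncard_sub, ncard_sub, hU.2.2]
        rw [← h1]
        apply Set.ncard_le_ncard_of_injOn (fun v => (U, v))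
        · intro v hv
          exact ⟨⟨hU, hv.1, hv.2⟩, rfl⟩
        · intro v _ w _ h
          exact (Prod.ext_iff.1 h).2
    have hup : P.ncard ≤ (2 ^ e * q ^ (e * (finrank F T - d))) * (T : Set V).ncard := by
      apply fib P (T : Set V) Prod.snd
      · intro x hx; exact hx.1.2.1 hx.2.1
      · intro x0 hx0
        have hfr : finrank F (S ⊔ Submodule.span F {x0.2} : Submodule F V) = finrank F S + 1 := by
          have h0 : x0.2 ≠ 0 := fun h => hx0.2.2 (h ▸ S.zero_mem)
          have h1 := Submodule.finrank_sup_add_finrank_inf_eq S (Submodule.span F {x0.2})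
          have h2 : S ⊓ Submodule.span F {x0.2} = ⊥ :=
            disjoint_iff.1 ((Submodule.disjoint_span_singleton' h0).2 hx0.2.2)
          rw [h2, finrank_bot, finrank_span_singleton h0] at h1
          omega
        refine le_trans ?_ (ih (S ⊔ Submodule.span F {x0.2}) (by omega))
        apply Set.ncard_le_ncard_of_injOn Prod.fst
        · rintro x ⟨hx, hxx⟩
          refine ⟨sup_le hx.1.1 ?_, hx.1.2.1, hx.1.2.2⟩
          rw [Submodule.span_singleton_le_iff_mem, ← hxx]
          exact hx.2.1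
        · rintro x ⟨_, hx⟩ y ⟨_, hy⟩ h
          exact Prod.ext h (hx.trans hy.symm)
    rw [ncard_sub, ← hq] at hup
    have h3 : q ^ d ≤ 2 * (q ^ d - q ^ finrank F S) := by
      have : q ^ finrank F S * 2 ≤ q ^ d := by
        calc q ^ finrank F S * 2 ≤ q ^ finrank F S * q := Nat.mul_le_mul_left _ hq2
          _ = q ^ (finrank F S + 1) := by rw [pow_succ]
          _ ≤ q ^ d := Nat.pow_le_pow_right (by omega) (by omega)
      omega
    have h4 : q ^ finrank F T = q ^ d * q ^ (finrank F T - d) := by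
      rw [← pow_add]; congr 1; omega
    have h5 : q ^ d * A.ncard ≤ q ^ d * (2 ^ (e + 1) * q ^ ((e + 1) * (finrank F T - d))) := by
      calc q ^ d * A.ncard ≤ 2 * (q ^ d - q ^ finrank F S) * A.ncard := Nat.mul_le_mul_right _ h3
        _ = 2 * ((q ^ d - q ^ finrank F S) * A.ncard) := by ring
        _ ≤ 2 * ((2 ^ e * q ^ (e * (finrank F T - d))) * q ^ finrank F T) :=
          Nat.mul_le_mul_left _ (hlow.trans hup)
        _ = _ := by rw [h4]; ring
    exact Nat.le_of_mul_le_mul_left h5 (by positivity)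

lemma sub_count (S T : Submodule F V) (d s t : ℕ) (hs : finrank F S = s) (ht : finrank F T = t) :
    {U : Submodule F V | S ≤ U ∧ U ≤ T ∧ finrank F U = d}.ncard ≤
      2 ^ finrank F V * Fintype.card F ^ ((d - s) * (t - d)) := by
  have : Module.Finite F V := Module.Finite.of_finite
  by_cases h : d ≤ finrank F V
  · refine (sub_count_aux T d _ S rfl).trans ?_
    rw [hs, ht]
    exact Nat.mul_le_mul_right _ (Nat.pow_le_pow_right (by norm_num) (by omega))
  · have : {U : Submodule F V | S ≤ U ∧ U ≤ T ∧ finrank F U = d} = ∅ := by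
      ext U
      simp only [Set.mem_ofPred_eq, Set.mem_empty_iff_false, iff_false]
      rintro ⟨_, _, h3⟩
      exact h (h3 ▸ Submodule.finrank_le U)
    rw [this]; simp

end

/-- symmetric matrices -/
def Sy (F : Type) [Field F] (n : ℕ) : AddSubgroup (Matrix (Fin n) (Fin n) F) where
  carrier := {A | A.IsSymm}
  add_mem' := fun ha hb => Matrix.IsSymm.add ha hb
  zero_mem' := Matrix.isSymm_zero
  neg_mem' := fun ha => Matrix.IsSymm.neg ha

variable {n : ℕ}

/-- kernel -/
def Kr (X : Sy F n) : Submodule F (Fin n → F) := LinearMap.ker X.1.mulVecLin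

/-- rank -/
noncomputable def rk (X : Sy F n) : ℕ := X.1.rank

omit [Fintype F] in
lemma mem_Kr (X : Sy F n) (v : Fin n → F) : v ∈ Kr X ↔ X.1.mulVec v = 0 := by
  simp [Kr]

omit [Fintype F] in
lemma mem_Kr_sub (X Y : Sy F n) (v : Fin n → F) :
    v ∈ Kr (X - Y) ↔ X.1.mulVec v = Y.1.mulVec v := by
  rw [mem_Kr, AddSubgroup.coe_sub, Matrix.sub_mulVec, sub_eq_zero]

omit [Fintype F] in
lemma Kr_sub_comm (X Y : Sy F n) : Kr (X - Y) = Kr (Y - X) := by
  ext v; rw [mem_Kr_sub, mem_Kr_sub, eq_comm]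

omit [Fintype F] in
lemma finrank_Kr (X : Sy F n) : finrank F (Kr X) + rk X = n := by
  have := LinearMap.finrank_range_add_finrank_ker X.1.mulVecLin
  simp only [finrank_fintype_fun_eq_card, Fintype.card_fin] at this
  unfold rk Kr Matrix.rank
  omega

omit [Fintype F] in
lemma rk_sub_comm (X Y : Sy F n) : rk (X - Y) = rk (Y - X) := by
  have h1 := finrank_Kr (X - Y)
  have h2 := finrank_Kr (Y - X)
  rw [Kr_sub_comm] at h1
  omega

omit [Fintype F] in
lemma sy_comm (X : Sy F n) (u v : Fin n → F) :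
    u ⬝ᵥ X.1.mulVec v = v ⬝ᵥ X.1.mulVec u := by
  have h : X.1.transpose = X.1 := X.2
  rw [Matrix.dotProduct_mulVec, ← Matrix.mulVec_transpose, h, dotProduct_comm]

/-- triangular numbers -/
def tri (i : ℕ) : ℕ := (i + 1).choose 2

lemma two_tri (i : ℕ) : 2 * tri i = i * (i + 1) := by
  unfold tri
  rw [Nat.choose_two_right, Nat.add_sub_cancel, Nat.mul_div_cancel' (by
    rw [mul_comm]; exact (Nat.even_mul_succ_self i).two_dvd), mul_comm]

lemma sym_count (W : Submodule F (Fin n → F)) (i : ℕ) (hW : finrank F W + i = n) :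
    {X : Sy F n | W ≤ Kr X}.ncard ≤ Fintype.card F ^ tri i := by
  classical
  obtain ⟨C, hC⟩ := W.exists_isCompl
  have hCi : finrank F C = i := by
    have := Submodule.finrank_add_eq_of_isCompl hC
    simp only [finrank_fintype_fun_eq_card, Fintype.card_fin] at this
    omega
  let b := Module.finBasisOfFinrankEq F C hCi
  let f : Sy F n → (Sym2 (Fin i) → F) := fun X =>
    Sym2.lift ⟨fun j k => (b j : Fin n → F) ⬝ᵥ X.1.mulVec (b k), fun j k => sy_comm X _ _⟩
  have hcard : (Set.univ : Set (Sym2 (Fin i) → F)).ncard = Fintype.card F ^ tri i := by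
    rw [Set.ncard_univ, Nat.card_eq_fintype_card, Fintype.card_fun, Sym2.card, Fintype.card_fin]
    rfl
  rw [← hcard]
  apply Set.ncard_le_ncard_of_injOn f (fun _ _ => Set.mem_univ _)
  intro X hX Y hY hXY
  have hb : ∀ j k, (b j : Fin n → F) ⬝ᵥ (X - Y).1.mulVec (b k) = 0 := by
    intro j k
    have := congrFun hXY s(j, k)
    simp only [f, Sym2.lift_mk] at this
    rw [AddSubgroup.coe_sub, Matrix.sub_mulVec, dotProduct_sub, this, sub_self]
  have hW' : ∀ w ∈ W, (X - Y).1.mulVec w = 0 := by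
    intro w hw
    rw [AddSubgroup.coe_sub, Matrix.sub_mulVec, (mem_Kr _ _).1 (hX hw), (mem_Kr _ _).1 (hY hw),
      sub_self]
  have hC1 : ∀ c : C, ∀ k, (c : Fin n → F) ⬝ᵥ (X - Y).1.mulVec (b k) = 0 := by
    intro c k
    rw [← b.sum_repr c]
    simp only [AddSubmonoidClass.coe_finset_sum, SetLike.val_smul, sum_dotProduct,
      smul_dotProduct, hb, smul_zero, Finset.sum_const_zero]
  have hC2 : ∀ c c' : C, (c : Fin n → F) ⬝ᵥ (X - Y).1.mulVec c' = 0 := by
    intro c c'
    rw [sy_comm, ← b.sum_repr c']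
    simp only [AddSubmonoidClass.coe_finset_sum, SetLike.val_smul, sum_dotProduct,
      smul_dotProduct]
    apply Finset.sum_eq_zero
    intro k _
    rw [sy_comm, hC1, smul_zero]
  have hall : ∀ u v : Fin n → F, u ⬝ᵥ (X - Y).1.mulVec v = 0 := by
    intro u v
    obtain ⟨u1, hu1, u2, hu2, rfl⟩ := Submodule.mem_sup.1
      (show u ∈ W ⊔ C by rw [hC.sup_eq_top]; trivial)
    obtain ⟨v1, hv1, v2, hv2, rfl⟩ := Submodule.mem_sup.1
      (show v ∈ W ⊔ C by rw [hC.sup_eq_top]; trivial)
    rw [Matrix.mulVec_add, hW' v1 hv1, zero_add, add_dotProduct, sy_comm _ u1, hW' u1 hu1,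
      dotProduct_zero, zero_add]
    exact hC2 ⟨u2, hu2⟩ ⟨v2, hv2⟩
  rw [← sub_eq_zero]
  ext j k
  have := hall (Pi.single j 1) (Pi.single k 1)
  simpa using this

lemma sym_count2 (P Q : Sy F n) (U1 U2 : Submodule F (Fin n → F)) (i : ℕ)
    (h : finrank F (U1 ⊔ U2 : Submodule F (Fin n → F)) + i = n) :
    {X : Sy F n | U1 ≤ Kr (X - P) ∧ U2 ≤ Kr (X - Q)}.ncard ≤ Fintype.card F ^ tri i := by
  by_cases hne : {X : Sy F n | U1 ≤ Kr (X - P) ∧ U2 ≤ Kr (X - Q)}.Nonempty
  swap
  · rw [Set.not_nonempty_iff_eq_empty.1 hne]; simp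
  obtain ⟨X0, h1, h2⟩ := hne
  refine le_trans ?_ (sym_count _ i h)
  apply Set.ncard_le_ncard_of_injOn (fun X => X - X0)
  · rintro X ⟨h3, h4⟩
    show U1 ⊔ U2 ≤ Kr (X - X0)
    refine sup_le ?_ ?_
    · intro v hv
      rw [mem_Kr_sub, (mem_Kr_sub _ _ _).1 (h3 hv), (mem_Kr_sub _ _ _).1 (h1 hv)]
    · intro v hv
      rw [mem_Kr_sub, (mem_Kr_sub _ _ _).1 (h4 hv), (mem_Kr_sub _ _ _).1 (h2 hv)]
  · intro X _ Y _ hXY
    simpa using hXY

end Vale.Agent.P050
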