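import Vale.Agent.P050.Small

namespace Vale.Agent.P050
open Module

variable {F : Type} [Field F] [Fintype F] {n : ℕ}

/-- weighted total rank -/
def LL (ρ : Fin 4 → Fin 4 → ℕ) : ℕ :=
  4 * (ρ 0 1 + ρ 2 3) + 3 * (ρ 0 2 + ρ 1 3) + 5 * (ρ 0 3 + ρ 1 2)

/-- main patterns -/
def pm (r : Fin 4 → Fin 2) (i j : Fin 4) : ℕ := if i = j then 0 else (r i).val + (r j).val

lemma triB (x y z : ℤ) (hx : 0 ≤ x) (hy : 0 ≤ y) (hz : 0 ≤ z) :
    3 * (2 * gq x y z + 3 * gq y x z + gq z x y) ≤ -(x + y + z) ^ 2 + 30 * (x + y + z) + 18 := by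
  unfold gq
  nlinarith [sq_nonneg (y + z - x), sq_nonneg (x + z - y), sq_nonneg (x + y - z),
    sq_nonneg (x - y), sq_nonneg (y - z), sq_nonneg (x - z)]

lemma gq_comm (a x y : ℤ) : gq a x y = gq a y x := by unfold gq; ring

lemma quadB (R : ℤ) : -R ^ 2 + 30 * R + 18 ≤ 243 := by nlinarith [sq_nonneg (R - 15)]

lemma quadC (R : ℤ) (h : -729 ≤ -R ^ 2 + 30 * R + 18) : R ≤ 60 := by nlinarith

omit [Fintype F] in
lemma rk_self (X : Sy F n) : rk (X - X) = 0 := by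
  rw [sub_self]; simp [rk]

lemma small_fib (κ : ℕ) (hκ : 30000 ≤ κ) (hn : n = 12 * κ) (ρ : Fin 4 → Fin 4 → ℕ)
    (hs : ρ 0 1 ≤ 60 ∧ ρ 2 3 ≤ 60 ∧ ρ 0 2 ≤ 60 ∧ ρ 1 3 ≤ 60) (N : ℕ) :
    {φ | φ ∈ Pat F n ρ ∧ finrank F (Nall φ) = N}.ncard ≤
      128 ^ n * Nat.card (Sy F n) * Fintype.card F ^ (κ * LL ρ) ∧
    ((∀ r, ρ ≠ pm r) → {φ | φ ∈ Pat F n ρ ∧ finrank F (Nall φ) = N}.ncard * Fintype.card F ≤
      128 ^ n * Nat.card (Sy F n) * Fintype.card F ^ (κ * LL ρ)) := by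
  set q := Fintype.card F
  have hq : 2 ≤ q := two_le_q
  by_cases hne : {φ | φ ∈ Pat F n ρ ∧ finrank F (Nall φ) = N}.Nonempty
  swap
  · rw [Set.not_nonempty_iff_eq_empty.1 hne]; simp
  obtain ⟨φ, hp, hN⟩ := hne
  have hsym : ∀ i j, ρ i j = ρ j i := fun i j => by rw [← hp i j, ← hp j i, rk_sub_comm]
  have hdiag : ∀ i, ρ i i = 0 := fun i => by rw [← hp i i, rk_self]
  have c1 := four φ 0 1 2 3 (by decide)
  have c2 := (four φ 0 2 1 3 (by decide)).1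
  have c3 := (four φ 0 3 1 2 (by decide)).1
  simp only [hp _ _, hN] at c1 c2 c3
  obtain ⟨m, hm⟩ : ∃ m, N + m = n := ⟨n - N, by have := fr_le (Nall φ); omega⟩
  have s10 := hsym 1 0
  have s20 := hsym 2 0
  have s30 := hsym 3 0
  have s21 := hsym 2 1
  have s31 := hsym 3 1
  have s32 := hsym 3 2
  suffices h : ∃ T, {φ | φ ∈ Pat F n ρ ∧ finrank F (Nall φ) = N}.ncard ≤
      128 ^ n * Nat.card (Sy F n) * q ^ T ∧ T ≤ κ * LL ρ ∧ ((∀ r, ρ ≠ pm r) → T + 1 ≤ κ * LL ρ) by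
    obtain ⟨T, h1, h2, h3⟩ := h
    refine ⟨h1.trans (Nat.mul_le_mul_left _ (Nat.pow_le_pow_right (by omega) h2)), fun h => ?_⟩
    refine (Nat.mul_le_mul_right _ h1).trans ?_
    rw [mul_assoc, ← pow_succ]
    exact Nat.mul_le_mul_left _ (Nat.pow_le_pow_right (by omega) (h3 h))
  by_cases hL : 12 * m + 1 ≤ LL ρ
  · have h1 := crude (F := F) ρ N m hm
    have hm' : m ≤ 120 := by
      have := c3
      clear * - this hs hm s10 s20 s30 s21 s31 s32
      omega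
    have ht := two_tri m
    have ht2 : tri m ≤ 7260 := by
      have : m * (m + 1) ≤ 120 * 121 := Nat.mul_le_mul hm' (by omega)
      clear * - this ht
      omega
    have h2 : N * m + 3 * tri m + 1 ≤ κ * LL ρ := by
      have : κ * (12 * m + 1) ≤ κ * LL ρ := Nat.mul_le_mul_left _ hL
      have h4 : N * m ≤ n * m := Nat.mul_le_mul_right _ (by omega)
      rw [hn] at h4
      clear * - this h4 ht2 hκ
      linarith
    refine ⟨N * m + 3 * tri m, h1.trans ?_, by omega, fun _ => h2⟩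
    exact Nat.mul_le_mul_right _ (Nat.mul_le_mul_right _ (Nat.pow_le_pow_left (by norm_num) _))
  · unfold LL at hL
    obtain ⟨c1, c1'⟩ := c1
    have g1 : ρ 2 1 + ρ 2 0 + ρ 3 1 + ρ 3 0 + 2 * N ≤ 2 * n := by
      clear * - c1 c2 c3 hL hm s10 s20 s30 s21 s31 s32
      omega
    obtain ⟨d1, -, -⟩ := c1' g1
    have f1 := tri_facts (φ 0) (φ 1) (φ 2)
    simp only [hp _ _] at f1
    have f2 := tri_facts (φ 0) (φ 1) (φ 3)
    simp only [hp _ _] at f2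
    have f3 : finrank F (Nall φ) ≤
        finrank F (Kr (φ 2 - φ 1) ⊓ Kr (φ 2 - φ 0) : Submodule F (Fin n → F)) := by
      apply Submodule.finrank_mono
      intro v hv
      rw [mem_Nall] at hv
      exact ⟨(mem_Kr_sub _ _ _).2 (hv _ _), (mem_Kr_sub _ _ _).2 (hv _ _)⟩
    rw [hN] at f3
    generalize finrank F (Kr (φ 2 - φ 1) ⊓ Kr (φ 2 - φ 0) : Submodule F (Fin n → F)) = d at *
    have hr : ∃ r0 r1 r2 r3, N + (r0 + r1 + r2 + r3) = n ∧ ρ 0 1 = r0 + r1 ∧ ρ 0 2 = r0 + r2 ∧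
        ρ 0 3 = r0 + r3 ∧ ρ 1 2 = r1 + r2 ∧ ρ 1 3 = r1 + r3 ∧ ρ 2 3 = r2 + r3 := by
      refine ⟨n - d - ρ 1 2, n - d - ρ 0 2, n - d - ρ 0 1, d - N, ?_⟩
      clear * - c1 c2 c3 hL hm s10 s20 s30 s21 s31 s32 d1 f1 f3
      omega
    obtain ⟨r0, r1, r2, r3, e, e01, e02, e03, e12, e13, e23⟩ := hr
    have h1 := eqreg (F := F) ρ N r0 r1 r2 r3 e e01 e02 e03 e12 e13 e23
    have h2 := eq_exp n N r0 r1 r2 r3 e
    have h3 : κ * LL ρ = n * (r0 + r1 + r2 + r3) := by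
      unfold LL
      rw [e01, e02, e03, e12, e13, e23, hn]; ring
    refine ⟨_, h1, ?_, ?_⟩
    · rw [h3]
      clear * - h2
      linarith [Nat.le_mul_self r0, Nat.le_mul_self r1, Nat.le_mul_self r2, Nat.le_mul_self r3]
    · intro hM
      have h4 : 2 ≤ r0 ∨ 2 ≤ r1 ∨ 2 ≤ r2 ∨ 2 ≤ r3 := by
        by_contra hc
        push Not at hc
        apply hM ![⟨r0, hc.1⟩, ⟨r1, hc.2.1⟩, ⟨r2, hc.2.2.1⟩, ⟨r3, hc.2.2.2⟩]
        ext i j
        fin_cases i <;> fin_cases j <;> simp [pm, hdiag] <;> omega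
      rw [h3]
      have h5 : r0 + r1 + r2 + r3 + 2 ≤ r0 * r0 + r1 * r1 + r2 * r2 + r3 * r3 := by
        clear * - h4
        have aux : ∀ r : ℕ, 2 ≤ r → r + 2 ≤ r * r := fun r h => by nlinarith
        rcases h4 with h | h | h | h <;>
        linarith [aux _ h, Nat.le_mul_self r0, Nat.le_mul_self r1, Nat.le_mul_self r2,
          Nat.le_mul_self r3]
      clear * - h2 h5
      have : 2 * (e0 n (r0 + r1) + cN n (r0 + r1) (r1 + r2) (r0 + r2) (N + r3) + e0 n r3 + 1) ≤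
        2 * (n * (r0 + r1 + r2 + r3)) := by linarith
      omega

theorem count_main (κ : ℕ) (hκ : 30000 ≤ κ) (hn : n = 12 * κ) (ρ : Fin 4 → Fin 4 → ℕ) :
    (Pat F n ρ).ncard ≤
      128 ^ n * Nat.card (Sy F n) * Fintype.card F ^ (κ * LL ρ) * (n + 1) ^ 2 ∧
    ((∀ r, ρ ≠ pm r) → (Pat F n ρ).ncard * Fintype.card F ≤
      128 ^ n * Nat.card (Sy F n) * Fintype.card F ^ (κ * LL ρ) * (n + 1) ^ 2) := by
  set q := Fintype.card F
  have hq : 2 ≤ q := two_le_q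
  by_cases hne : (Pat F n ρ).Nonempty
  swap
  · rw [Set.not_nonempty_iff_eq_empty.1 hne]; simp
  obtain ⟨φ, hp⟩ := hne
  have hsym : ∀ i j, ρ i j = ρ j i := fun i j => by rw [← hp i j, ← hp j i, rk_sub_comm]
  by_cases hbig : 1 ≤ LL ρ ∧ ∃ i j k l : Fin 4, (∀ m, m = i ∨ m = j ∨ m = k ∨ m = l) ∧
      4 * (n : ℤ) * (ρ k j + ρ k i) + gq (ρ i j) (ρ k j) (ρ k i) +
      (4 * (n : ℤ) * (ρ l j + ρ l i) + gq (ρ i j) (ρ l j) (ρ l i)) < 8 * (κ * LL ρ)
  · obtain ⟨h1, i, j, k, l, hc, hT⟩ := hbig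
    have h2 : 1 ≤ κ * LL ρ := Nat.mul_pos (by omega) h1
    obtain ⟨T, hT'⟩ : ∃ T, κ * LL ρ = T + 1 := ⟨κ * LL ρ - 1, by omega⟩
    have h3 := theta (F := F) (n := n) ρ i j k l hc T (by
      have : ((κ * LL ρ : ℕ) : ℤ) = T + 1 := by rw [hT']; push_cast; ring
      rw [← this]; push_cast; exact hT)
    have h4 : (Pat F n ρ).ncard * q ≤
        128 ^ n * Nat.card (Sy F n) * q ^ (κ * LL ρ) * (n + 1) ^ 2 := by
      refine (Nat.mul_le_mul_right _ h3).trans (le_of_eq ?_)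
      rw [hT', pow_succ]; ring
    exact ⟨le_trans (Nat.le_mul_of_pos_right _ (by omega)) h4, fun _ => h4⟩
  have hs : ρ 0 1 ≤ 60 ∧ ρ 2 3 ≤ 60 ∧ ρ 0 2 ≤ 60 ∧ ρ 1 3 ≤ 60 := by
    by_cases hL : 1 ≤ LL ρ
    swap
    · unfold LL at hL; omega
    push Not at hbig
    have hb := hbig hL
    have t1 := hb 0 1 2 3 (by decide)
    have t2 := hb 2 3 0 1 (by decide)
    have t3 := hb 0 2 1 3 (by decide)
    have t4 := hb 1 3 0 2 (by decide)
    have t5 := hb 0 3 1 2 (by decide)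
    have t6 := hb 1 2 0 3 (by decide)
    simp only [hsym 1 0, hsym 2 0, hsym 3 0, hsym 2 1, hsym 3 1, hsym 3 2, LL, hn] at t1 t2 t3 t4 t5 t6
    push_cast at t1 t2 t3 t4 t5 t6
    have p1 : (0 : ℤ) ≤ ρ 0 1 := by positivity
    have p2 : (0 : ℤ) ≤ ρ 0 2 := by positivity
    have p3 : (0 : ℤ) ≤ ρ 0 3 := by positivity
    have p4 : (0 : ℤ) ≤ ρ 1 2 := by positivity
    have p5 : (0 : ℤ) ≤ ρ 1 3 := by positivity
    have p6 : (0 : ℤ) ≤ ρ 2 3 := by positivity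
    suffices h : (ρ 0 1 : ℤ) ≤ 60 ∧ (ρ 2 3 : ℤ) ≤ 60 ∧ (ρ 0 2 : ℤ) ≤ 60 ∧ (ρ 1 3 : ℤ) ≤ 60 by
      omega
    generalize (ρ 0 1 : ℤ) = a at *
    generalize (ρ 2 3 : ℤ) = b at *
    generalize (ρ 0 2 : ℤ) = c at *
    generalize (ρ 1 3 : ℤ) = d at *
    generalize (ρ 0 3 : ℤ) = e at *
    generalize (ρ 1 2 : ℤ) = f at *
    have u1 := triB a c f p1 p2 p4
    have u2 := triB a d e p1 p5 p3
    have u3 := triB b c e p6 p2 p3
    have u4 := triB b d f p6 p5 p4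
    have v1 := quadB (a + c + f)
    have v2 := quadB (a + d + e)
    have v3 := quadB (b + c + e)
    have v4 := quadB (b + d + f)
    have w1 := gq_comm a f c
    have w2 := gq_comm b e c
    have w3 := gq_comm b d f
    have w4 := gq_comm c f a
    have w5 := gq_comm c b e
    have w6 := gq_comm d e a
    have w7 := gq_comm d b f
    have w8 := gq_comm e d a
    have w9 := gq_comm e b c
    have w10 := gq_comm f c a
    have w11 := gq_comm f b d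
    have w12 := gq_comm a d e
    have x1 := quadC (a + c + f) (by linarith)
    have x2 := quadC (b + d + f) (by linarith)
    refine ⟨by linarith, by linarith, by linarith, by linarith⟩
  have hpos : (n + 1) ≤ (n + 1) ^ 2 := by nlinarith
  constructor
  · have h := fib (Pat F n ρ) (Set.univ : Set (Fin (n + 1))) (fun φ => dimF (Nall φ))
      (128 ^ n * Nat.card (Sy F n) * q ^ (κ * LL ρ)) (fun _ _ => Set.mem_univ _) ?_
    · refine h.trans (Nat.mul_le_mul_left _ ?_)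
      rw [Set.ncard_univ]; simpa using hpos
    · intro φ0 _
      refine le_trans (Set.ncard_le_ncard ?_)
        (small_fib κ hκ hn ρ hs (finrank F (Nall φ0))).1
      rintro φ ⟨h1, h2⟩
      exact ⟨h1, congrArg Fin.val h2⟩
  · intro hM
    have h := fib (Pat F n ρ) (Set.univ : Set (Fin (n + 1))) (fun φ => dimF (Nall φ))
      (128 ^ n * Nat.card (Sy F n) * q ^ (κ * LL ρ) / q) (fun _ _ => Set.mem_univ _) ?_
    · refine (Nat.mul_le_mul_right _ h).trans ?_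
      rw [Set.ncard_univ, mul_right_comm]
      refine Nat.mul_le_mul (Nat.div_mul_le_self _ _) ?_
      simpa using hpos
    · intro φ0 _
      rw [Nat.le_div_iff_mul_le (by omega)]
      refine le_trans (Nat.mul_le_mul_right _ (Set.ncard_le_ncard ?_))
        ((small_fib κ hκ hn ρ hs (finrank F (Nall φ0))).2 hM)
      rintro φ ⟨h1, h2⟩
      exact ⟨h1, congrArg Fin.val h2⟩

end Vale.Agent.P050
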