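import Mathlib

namespace Vale.Agent.P050

lemma sum3 {A B C : Type} [Fintype A] [Fintype B] [Fintype C] (g : A → B → C → ℝ) :
    ∑ x, ∑ b, ∑ f, g x b f = ∑ f, ∑ x, ∑ b, g x b f := by
  calc _ = ∑ x, ∑ f, ∑ b, g x b f := Finset.sum_congr rfl fun x _ => Finset.sum_comm
    _ = _ := Finset.sum_comm

section
variable {Ω : Type} [Fintype Ω] (μ : Ω → ℝ) (W : Ω → Ω → ℝ) (hs : ∀ a b, W a b = W b a)

/-- edge probabilities -/
def Ws {N : ℕ} (x : Fin N → Ω) : Sym2 (Fin N) → ℝ :=
  Sym2.lift ⟨fun i j => W (x i) (x j), fun _ _ => hs _ _⟩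

/-- weight of an edge choice -/
def wb {N : ℕ} (x : Fin N → Ω) (b : Sym2 (Fin N) → Bool) : ℝ :=
  ∏ s, if b s then Ws W hs x s else 1 - Ws W hs x s

omit [Fintype Ω] in
lemma wb_ind {N : ℕ} (x : Fin N → Ω) {E : Type} [Fintype E] (g : E → Sym2 (Fin N))
    (hg : Function.Injective g) :
    ∑ b, wb W hs x b * ∏ e, (if b (g e) then (1 : ℝ) else 0) = ∏ e, Ws W hs x (g e) := by
  classical
  have h1 : ∀ b : Sym2 (Fin N) → Bool, wb W hs x b * ∏ e, (if b (g e) then (1 : ℝ) else 0) =
      ∏ s, ((if b s then Ws W hs x s else 1 - Ws W hs x s) *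
        (if s ∈ Finset.univ.image g then (if b s then 1 else 0) else 1)) := by
    intro b
    rw [Finset.prod_mul_distrib, Finset.prod_ite_mem, Finset.univ_inter,
      Finset.prod_image (fun a _ c _ h => hg h)]
    rfl
  simp_rw [h1]
  rw [← Fintype.piFinset_univ, ← Finset.prod_univ_sum (fun _ => Finset.univ)
    (fun s (β : Bool) => (if β then Ws W hs x s else 1 - Ws W hs x s) *
        (if s ∈ Finset.univ.image g then (if β then (1 : ℝ) else 0) else 1)),
    ← Finset.prod_image (s := Finset.univ) (g := g) (f := fun s => Ws W hs x s)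
      (fun a _ c _ h => hg h), ← Finset.univ_inter (Finset.univ.image g), ← Finset.prod_ite_mem]
  apply Finset.prod_congr rfl
  intro s _
  simp only [Finset.univ_inter]
  split_ifs <;> simp

lemma sum_restrict (hμ : ∑ a, μ a = 1) {N : ℕ} {I : Type} [Fintype I] [DecidableEq I]
    (f : I → Fin N) (hf : Function.Injective f) (G : (I → Ω) → ℝ) :
    ∑ x : Fin N → Ω, (∏ i, μ (x i)) * G (x ∘ f) = ∑ y : I → Ω, (∏ u, μ (y u)) * G y := by
  classical
  let p : Fin N → Prop := fun i => i ∈ Set.range f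
  let e : I ≃ {i // p i} := Equiv.ofInjective f hf
  rw [← (Equiv.piEquivPiSubtypeProd p (fun _ => Ω)).symm.sum_comp, Fintype.sum_prod_type,
    ← (Equiv.arrowCongr e (Equiv.refl Ω)).sum_comp]
  apply Finset.sum_congr rfl
  intro y _
  have h1 : ∀ z : {i // ¬ p i} → Ω,
      ((Equiv.piEquivPiSubtypeProd p (fun _ => Ω)).symm
        (Equiv.arrowCongr e (Equiv.refl Ω) y, z)) ∘ f = y := by
    intro z
    ext u
    have hp : p (f u) := ⟨u, rfl⟩
    simp only [Function.comp_apply, Equiv.piEquivPiSubtypeProd_symm_apply, dif_pos hp,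
      Equiv.arrowCongr_apply, Equiv.coe_refl, id_eq]
    congr 1
    exact e.symm_apply_eq.2 rfl
  have h2 : ∀ z : {i // ¬ p i} → Ω,
      ∏ i, μ ((Equiv.piEquivPiSubtypeProd p (fun _ => Ω)).symm
        (Equiv.arrowCongr e (Equiv.refl Ω) y, z) i) = (∏ u, μ (y u)) * ∏ i, μ (z i) := by
    intro z
    rw [← Fintype.prod_subtype_mul_prod_subtype p]
    congr 1
    · symm
      refine @Fintype.prod_equiv _ _ _ _ (Subtype.fintype p) _ e _ _ ?_
      intro u
      simp only [Equiv.piEquivPiSubtypeProd_symm_apply, dif_pos (e u).2,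
        Equiv.arrowCongr_apply, Equiv.coe_refl, id_eq, Function.comp_apply, Subtype.coe_eta,
        Equiv.symm_apply_apply]
    · apply Finset.prod_congr rfl
      intro i _
      simp only [Equiv.piEquivPiSubtypeProd_symm_apply, dif_neg i.2]
  simp_rw [h1, h2, mul_right_comm _ _ (G y)]
  rw [← Finset.mul_sum, ← Fintype.piFinset_univ,
    ← Finset.prod_univ_sum (fun _ => Finset.univ) (fun _ a => μ a)]
  simp [hμ]

lemma exp_ind (hμ : ∑ a, μ a = 1) {N : ℕ} {I E : Type} [Fintype I] [DecidableEq I] [Fintype E]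
    (a c : E → I) (hac : Function.Injective fun e => s(a e, c e))
    (f : I → Fin N) (hf : Function.Injective f) :
    ∑ x : Fin N → Ω, ∑ b, (∏ i, μ (x i)) * wb W hs x b *
      ∏ e, (if b s(f (a e), f (c e)) then (1 : ℝ) else 0) =
      ∑ y : I → Ω, (∏ u, μ (y u)) * ∏ e, W (y (a e)) (y (c e)) := by
  rw [← sum_restrict μ hμ f hf]
  apply Finset.sum_congr rfl
  intro x _
  simp_rw [mul_assoc]
  rw [← Finset.mul_sum, wb_ind W hs x (fun e => s(f (a e), f (c e)))]
  · rfl
  · intro e e' h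
    apply hac
    have : Sym2.map f s(a e, c e) = Sym2.map f s(a e', c e') := h
    exact Sym2.map.injective hf this

lemma wt_sum (hμ : ∑ a, μ a = 1) (N : ℕ) :
    ∑ x : Fin N → Ω, ∑ b, (∏ i, μ (x i)) * wb W hs x b = 1 := by
  have := exp_ind μ W hs hμ (N := N) (I := Empty) (E := Empty) Empty.elim Empty.elim
    (fun e => e.elim) Empty.elim (fun e => e.elim)
  simpa using this

end

/-- the sampled graph -/
def GB {N : ℕ} (b : Sym2 (Fin N) → Bool) : SimpleGraph (Fin N) where
  Adj i j := i ≠ j ∧ b s(i, j) = true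
  symm := ⟨fun i j h => ⟨h.1.symm, by rw [Sym2.eq_swap]; exact h.2⟩⟩
  loopless := ⟨fun i h => h.1 rfl⟩

lemma hom_le {N : ℕ} (b : Sym2 (Fin N) → Bool) {I E : Type} [Fintype I] [DecidableEq I]
    [Fintype E] (a c : E → I) (H : SimpleGraph I) (hH : ∀ e, H.Adj (a e) (c e)) :
    (Nat.card (H →g GB b) : ℝ) ≤
      ∑ f : I → Fin N, ∏ e, (if b s(f (a e), f (c e)) then (1 : ℝ) else 0) := by
  classical
  have h1 : Nat.card (H →g GB b) ≤
      (Finset.univ.filter fun f : I → Fin N => ∀ e, b s(f (a e), f (c e)) = true).card := by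
    rw [← Fintype.card_subtype, ← Nat.card_eq_fintype_card]
    apply Nat.card_le_card_of_injective
      (fun φ : H →g GB b => (⟨φ, fun e => (φ.map_rel (hH e)).2⟩ :
        {f : I → Fin N // ∀ e, b s(f (a e), f (c e)) = true}))
    intro φ φ' h
    exact DFunLike.coe_injective (congrArg Subtype.val h)
  refine le_trans (Nat.cast_le.2 h1) (le_of_eq ?_)
  rw [Finset.card_filter]
  push_cast
  apply Finset.sum_congr rfl
  intro f _
  rw [Finset.prod_ite_zero]
  simp

lemma edge_eq {N : ℕ} (b : Sym2 (Fin N) → Bool) :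
    2 * ((GB b).edgeSet.ncard : ℝ) =
      ∑ i, ∑ j, if i ≠ j then (if b s(i, j) then (1 : ℝ) else 0) else 0 := by
  classical
  have h := (GB b).two_mul_card_edgeFinset
  rw [Set.ncard_eq_toFinset_card', ← Fintype.sum_prod_type']
  have h2 : (2 * ((GB b).edgeSet.toFinset.card : ℝ)) = ((2 * (GB b).edgeFinset.card : ℕ) : ℝ) := by
    push_cast; rfl
  rw [h2, h, Finset.card_filter]
  push_cast
  apply Finset.sum_congr rfl
  rintro ⟨i, j⟩ _
  by_cases h1 : i = j <;> by_cases h2 : b s(i, j) = true <;> simp [GB, h1, h2]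

lemma noninj_le (N : ℕ) (hN : 0 < N) (I : Type) [Fintype I] [DecidableEq I]
    (hv : Fintype.card I ≤ N) :
    ((Finset.univ.filter fun f : I → Fin N => ¬ Function.Injective f).card : ℝ) ≤
      (N : ℝ) ^ Fintype.card I * ((Fintype.card I : ℝ) ^ 2 / N) := by
  classical
  set v := Fintype.card I with hv'
  have h1 : (Finset.univ.filter fun f : I → Fin N => Function.Injective f).card =
      N.descFactorial v := by
    rw [← Fintype.card_subtype, Fintype.card_congr (Equiv.subtypeInjectiveEquivEmbedding _ _),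
      Fintype.card_embedding_eq, Fintype.card_fin]
  have h2 := Finset.card_filter_add_card_filter_not (s := Finset.univ)
    (fun f : I → Fin N => Function.Injective f)
  rw [h1, Finset.card_univ, Fintype.card_fun, Fintype.card_fin] at h2
  have h3 : (N - v) ^ v ≤ N.descFactorial v :=
    le_trans (Nat.pow_le_pow_left (by omega) _) (Nat.pow_sub_le_descFactorial N v)
  have h4 : ((N : ℝ) - v) ^ v ≤ N.descFactorial v := by
    rw [← Nat.cast_sub hv]; exact_mod_cast h3
  have hN' : (0 : ℝ) < N := by exact_mod_cast hN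
  have hv2 : (v : ℝ) ≤ N := by exact_mod_cast hv
  have h5 := one_add_mul_le_pow (a := -((v : ℝ) / N))
    (by have : (v : ℝ) / N ≤ 1 := (div_le_one hN').2 hv2; linarith) v
  have h6 : ((N : ℝ) - v) ^ v = (N : ℝ) ^ v * (1 + -((v : ℝ) / N)) ^ v := by
    rw [← mul_pow]; congr 1; field_simp; ring
  have h7 : ((N.descFactorial v : ℕ) : ℝ) + ((Finset.univ.filter
      fun f : I → Fin N => ¬ Function.Injective f).card : ℝ) = (N : ℝ) ^ v := by
    exact_mod_cast h2
  have h8 : (N : ℝ) ^ v * (1 + v * -((v : ℝ) / N)) ≤ (N : ℝ) ^ v * (1 + -((v : ℝ) / N)) ^ v :=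
    mul_le_mul_of_nonneg_left h5 (by positivity)
  have h9 : (N : ℝ) ^ v * (1 + v * -((v : ℝ) / N)) =
      (N : ℝ) ^ v - (N : ℝ) ^ v * ((v : ℝ) ^ 2 / N) := by ring
  linarith

theorem sample {Ω : Type} [Fintype Ω] (μ : Ω → ℝ) (W : Ω → Ω → ℝ) (hs : ∀ a b, W a b = W b a)
    (hμ0 : ∀ a, 0 ≤ μ a) (hμ : ∑ a, μ a = 1) (hW0 : ∀ a b, 0 ≤ W a b) (hW1 : ∀ a b, W a b ≤ 1)
    {I E : Type} [Fintype I] [DecidableEq I] [Fintype E]
    (a c : E → I) (hac : Function.Injective fun e => s(a e, c e))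
    (H : SimpleGraph I) (hH : ∀ e, H.Adj (a e) (c e)) (p : ℝ) (hp : 0 < p)
    (hp' : ∑ y : Fin 2 → Ω, (∏ u, μ (y u)) * W (y 0) (y 1) = p)
    (ht : ∑ y : I → Ω, (∏ u, μ (y u)) * ∏ e, W (y (a e)) (y (c e)) < p ^ Fintype.card E) :
    ∃ N : ℕ, 0 < N ∧ ∃ G : SimpleGraph (Fin N),
      (Nat.card (H →g G) : ℝ) / (N : ℝ) ^ Fintype.card I <
        (2 * (G.edgeSet.ncard : ℝ) / (N : ℝ) ^ 2) ^ Fintype.card E := by
  classical
  set t := ∑ y : I → Ω, (∏ u, μ (y u)) * ∏ e, W (y (a e)) (y (c e)) with ht'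
  set m := Fintype.card E
  set v := Fintype.card I
  have ht0 : 0 ≤ t := Finset.sum_nonneg fun y _ =>
    mul_nonneg (Finset.prod_nonneg fun _ _ => hμ0 _) (Finset.prod_nonneg fun _ _ => hW0 _ _)
  obtain ⟨N0, hN0⟩ := exists_nat_gt (((v : ℝ) ^ 2 + m * p ^ m) / (p ^ m - t))
  set N := N0 + v + 1 with hN
  have hN' : (0 : ℝ) < N := by positivity
  have hNN : (N0 : ℝ) ≤ N := by rw [hN]; push_cast; have : (0 : ℝ) ≤ v := by positivity
                                linarith
  have hgap : ((v : ℝ) ^ 2 + m * p ^ m) / N < p ^ m - t := by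
    rw [div_lt_iff₀ (by linarith)] at hN0
    rw [div_lt_iff₀ hN']
    nlinarith
  refine ⟨N, by omega, ?_⟩
  by_contra hcon
  push Not at hcon
  have hwt : ∀ (x : Fin N → Ω) b, 0 ≤ (∏ i, μ (x i)) * wb W hs x b := by
    intro x b
    apply mul_nonneg (Finset.prod_nonneg fun _ _ => hμ0 _)
    apply Finset.prod_nonneg
    intro s _
    induction s using Sym2.ind with
    | h i j =>
      have := hW0 (x i) (x j)
      have := hW1 (x i) (x j)
      simp only [Ws, Sym2.lift_mk]
      split_ifs <;> linarith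
  have key : ∀ b : Sym2 (Fin N) → Bool,
      p ^ m * (1 - m) + m * p ^ m / p / N ^ 2 *
        (∑ i, ∑ j, if i ≠ j then (if b s(i, j) then (1 : ℝ) else 0) else 0) ≤
      (∑ f : I → Fin N, ∏ e, (if b s(f (a e), f (c e)) then (1 : ℝ) else 0)) / N ^ v := by
    intro b
    have h1 := hcon (GB b)
    have h2 := hom_le b a c H hH
    rw [← edge_eq]
    set ed := 2 * ((GB b).edgeSet.ncard : ℝ)
    have hed : 0 ≤ ed := by positivity
    have h3 := one_add_mul_le_pow (a := ed / N ^ 2 / p - 1)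
      (by have : 0 ≤ ed / N ^ 2 / p := by positivity
          linarith) m
    have h4 : (ed / N ^ 2) ^ m = p ^ m * (1 + (ed / N ^ 2 / p - 1)) ^ m := by
      rw [← mul_pow]; congr 1; field_simp; ring
    calc _ = p ^ m * (1 + m * (ed / N ^ 2 / p - 1)) := by ring
      _ ≤ (ed / N ^ 2) ^ m := by rw [h4]; exact mul_le_mul_of_nonneg_left h3 (by positivity)
      _ ≤ _ := h1.trans (div_le_div_of_nonneg_right h2 (by positivity))
  have hsum := Finset.sum_le_sum (s := Finset.univ) fun (x : Fin N → Ω) _ =>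
    Finset.sum_le_sum (s := Finset.univ) fun b _ => mul_le_mul_of_nonneg_left (key b) (hwt x b)
  have hL : ∑ x : Fin N → Ω, ∑ b, (∏ i, μ (x i)) * wb W hs x b *
      (∑ i, ∑ j, if i ≠ j then (if b s(i, j) then (1 : ℝ) else 0) else 0) = N * (N - 1) * p := by
    simp_rw [Finset.mul_sum]
    have e1 : ∀ i j : Fin N, ∑ x : Fin N → Ω, ∑ b, (∏ i, μ (x i)) * wb W hs x b *
        (if i ≠ j then (if b s(i, j) then (1 : ℝ) else 0) else 0) = if i ≠ j then p else 0 := by
      intro i j
      split_ifs with h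
      · have := exp_ind μ W hs hμ (N := N) (I := Fin 2) (E := Unit) (fun _ => 0) (fun _ => 1)
          (fun _ _ _ => rfl) ![i, j] (by
            intro u w huw
            fin_cases u <;> fin_cases w
            · rfl
            · exact absurd huw h
            · exact absurd huw.symm h
            · rfl)
        rw [← hp']
        simpa using this
      · simp
    calc _ = ∑ i : Fin N, ∑ j : Fin N, ∑ x : Fin N → Ω, ∑ b, (∏ i, μ (x i)) * wb W hs x b *
        (if i ≠ j then (if b s(i, j) then (1 : ℝ) else 0) else 0) := by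
          rw [sum3]
          exact Finset.sum_congr rfl fun i _ => sum3 _
      _ = ∑ i : Fin N, ∑ j : Fin N, if i ≠ j then p else 0 := by simp_rw [e1]
      _ = ∑ _i : Fin N, ((N : ℝ) - 1) * p := by
          apply Finset.sum_congr rfl
          intro i _
          rw [← Finset.sum_filter, Finset.sum_const, Finset.filter_ne, Finset.card_erase_of_mem
            (Finset.mem_univ _), Finset.card_univ, Fintype.card_fin, nsmul_eq_mul,
            Nat.cast_sub (by omega)]
          simp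
      _ = _ := by simp; ring
  have hR : ∑ x : Fin N → Ω, ∑ b, (∏ i, μ (x i)) * wb W hs x b *
      (∑ f : I → Fin N, ∏ e, (if b s(f (a e), f (c e)) then (1 : ℝ) else 0)) ≤
      (N : ℝ) ^ v * t + (N : ℝ) ^ v * ((v : ℝ) ^ 2 / N) := by
    simp_rw [Finset.mul_sum]
    have e1 : ∀ f : I → Fin N, ∑ x : Fin N → Ω, ∑ b, (∏ i, μ (x i)) * wb W hs x b *
        ∏ e, (if b s(f (a e), f (c e)) then (1 : ℝ) else 0) ≤
        t + if ¬ Function.Injective f then 1 else 0 := by
      intro f
      by_cases hf : Function.Injective f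
      · rw [exp_ind μ W hs hμ a c hac f hf]; simp [hf, ht']
      · rw [if_pos hf]
        refine le_trans ?_ (le_add_of_nonneg_left ht0)
        refine le_trans ?_ (wt_sum μ W hs hμ N).le
        refine Finset.sum_le_sum fun x _ => Finset.sum_le_sum fun b _ => ?_
        apply mul_le_of_le_one_right (hwt x b)
        apply Finset.prod_le_one <;> intro e _ <;> split_ifs <;> norm_num
    calc _ = ∑ f : I → Fin N, ∑ x : Fin N → Ω, ∑ b, (∏ i, μ (x i)) * wb W hs x b *
        ∏ e, (if b s(f (a e), f (c e)) then (1 : ℝ) else 0) := sum3 _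
      _ ≤ ∑ f : I → Fin N, (t + if ¬ Function.Injective f then 1 else 0) :=
          Finset.sum_le_sum fun f _ => e1 f
      _ ≤ _ := by
          rw [Finset.sum_add_distrib, Finset.sum_const, Finset.card_univ, Fintype.card_fun,
            Fintype.card_fin, nsmul_eq_mul, Finset.sum_boole]
          push_cast
          have := noninj_le N (by omega) I (by omega)
          linarith
  simp_rw [mul_add, Finset.sum_add_distrib, ← mul_div_assoc, ← Finset.sum_div,
    mul_left_comm _ (m * p ^ m / p / N ^ 2), ← Finset.mul_sum, ← Finset.sum_mul] at hsum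
  rw [wt_sum μ W hs hμ N, hL] at hsum
  have h5 := hsum.trans (div_le_div_of_nonneg_right hR (by positivity))
  have h6 : ((N : ℝ) ^ v * t + (N : ℝ) ^ v * ((v : ℝ) ^ 2 / N)) / N ^ v = t + (v : ℝ) ^ 2 / N := by
    field_simp
  have h7 : 1 * (p ^ m * (1 - (m : ℝ))) + m * p ^ m / p / N ^ 2 * (N * (N - 1) * p) =
      p ^ m - m * p ^ m / N := by
    field_simp; ring
  rw [h6, h7] at h5
  rw [add_div] at hgap
  linarith

end Vale.Agent.P050
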