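import Vale.Agent.P050.Mix
import Vale.Agent.P050.Sample

namespace Vale.Agent.P050

lemma prod_zpow {I : Type} [Fintype I] (ε : ℝ) (hε : ε ≠ 0) (f : I → ℤ) :
    ∏ i, ε ^ f i = ε ^ ∑ i, f i := by
  classical
  induction (Finset.univ : Finset I) using Finset.induction_on with
  | empty => simp
  | insert a s ha ih => rw [Finset.prod_insert ha, Finset.sum_insert ha, ih, zpow_add₀ hε]

lemma weights (C0 c0 : ℝ) (hC : 1 ≤ C0) (hc : 0 < c0) (hc1 : c0 ≤ 1) :
    ∃ (w : Fin 22 → ℝ) (a : Fin 22 → Fin 22 → ℝ) (γ : ℝ), 0 < γ ∧ (∀ c, 0 ≤ w c) ∧ ∑ c, w c = 1 ∧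
      (∀ c c', 0 ≤ a c c') ∧ (∀ c c', a c c' ≤ 1) ∧ (∀ c c', a c c' = a c' c) ∧
      ∀ S : (Fin 22 → Fin 22) → ℝ,
        (∀ τ, S τ ≤ 1 + C0 * ∏ e, a (τ (src e)) (τ (dst e))) →
        (∀ k, S (aut k) ≤ 1 - c0 * ∏ e, a (aut k (src e)) (aut k (dst e))) →
        ∑ τ : Fin 22 → Fin 22, (∏ u, w (τ u)) * S τ ≤ 1 - γ := by
  classical
  obtain ⟨α, β, hβ, h⟩ := good4
  obtain ⟨K, hK⟩ := Finite.bddAbove_range (fun p : Fin 22 × Fin 22 => -β p.1 p.2)
  have hK' : ∀ c c', 0 ≤ β c c' + K := fun c c' => by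
    have : -β c c' ≤ K := hK ⟨(c, c'), rfl⟩
    omega
  set M : ℝ := (Fintype.card (Fin 22 → Fin 22) : ℝ) with hM
  have hM1 : 1 ≤ M := by
    rw [hM]; exact_mod_cast Fintype.card_pos
  set ε : ℝ := c0 / (2 * M * C0) with hε
  have hε0 : 0 < ε := by positivity
  have hε1 : ε ≤ 1 := by
    rw [hε, div_le_one (by positivity)]
    nlinarith
  set Z : ℝ := ∑ c, ε ^ α c with hZ
  have hZ0 : 0 < Z := Finset.sum_pos (fun _ _ => by positivity) Finset.univ_nonempty
  let w : Fin 22 → ℝ := fun c => ε ^ α c / Z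
  let a : Fin 22 → Fin 22 → ℝ := fun c c' => if adjP c c' then ε ^ (β c c' + K) else 0
  have hw0 : ∀ c, 0 ≤ w c := fun c => by simp only [w]; positivity
  have hw1 : ∑ c, w c = 1 := by
    simp only [w]
    rw [← Finset.sum_div, div_self hZ0.ne']
  have ha0 : ∀ c c', 0 ≤ a c c' := fun c c' => by
    simp only [a]; split_ifs <;> positivity
  have hΛ : ∀ τ : Fin 22 → Fin 22, (∀ e, adjP (τ (src e)) (τ (dst e))) →
      (∏ u, w (τ u)) * ∏ e, a (τ (src e)) (τ (dst e)) = ε ^ (Phi α β τ + 24 * K) / Z ^ 22 := by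
    intro τ hτ
    simp only [w, a, hτ, if_true]
    rw [Finset.prod_div_distrib, prod_zpow ε hε0.ne', prod_zpow ε hε0.ne', div_mul_eq_mul_div,
      ← zpow_add₀ hε0.ne', Finset.sum_add_distrib]
    simp only [Finset.prod_const, Finset.card_univ, Fintype.card_fin, Finset.sum_const, Phi,
      add_assoc, nsmul_eq_mul, Nat.cast_ofNat]
  set Λ : ℝ := ε ^ (Phi α β id + 24 * K) / Z ^ 22 with hΛ0
  have hΛp : 0 < Λ := by positivity
  refine ⟨w, a, c0 * Λ / 2, by positivity, hw0, hw1, ha0, ?_, ?_, ?_⟩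
  · intro c c'
    simp only [a]
    split_ifs
    · exact zpow_le_one₀ hε0 hε1 (hK' c c')
    · norm_num
  · intro c c'
    have : adjP c c' ↔ adjP c' c := by
      constructor <;> rintro ⟨e, h⟩ <;> exact ⟨e, h.symm⟩
    simp only [a, this, hβ c c']
  intro S hS1 hS2
  have key : ∀ τ : Fin 22 → Fin 22, (∏ u, w (τ u)) * S τ ≤
      ∏ u, w (τ u) + (if τ = id then -(c0 * Λ) else 0) + C0 * ε * Λ := by
    intro τ
    have hp : 0 ≤ ∏ u, w (τ u) := Finset.prod_nonneg fun _ _ => hw0 _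
    have hq : 0 ≤ C0 * ε * Λ := by positivity
    by_cases hτ : ∀ e, adjP (τ (src e)) (τ (dst e))
    · have h1 := hΛ τ hτ
      by_cases hc : Phi α β τ ≤ Phi α β id
      · obtain ⟨k, hk⟩ := is_aut τ hτ ((h τ).2 hc)
        have h2 := mul_le_mul_of_nonneg_left (hS2 k) (hk ▸ hp)
        rw [← hk, mul_sub, mul_left_comm, h1, le_antisymm hc (h τ).1, ← hΛ0] at h2
        have : 0 < c0 * Λ := by positivity
        split_ifs <;> linarith
      · have hne : τ ≠ id := by rintro rfl; exact hc le_rfl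
        rw [if_neg hne]
        have h2 := mul_le_mul_of_nonneg_left (hS1 τ) hp
        rw [mul_add, mul_left_comm, h1] at h2
        have h3 : ε ^ (Phi α β τ + 24 * K) ≤ ε * ε ^ (Phi α β id + 24 * K) := by
          rw [← zpow_one_add₀ hε0.ne']
          exact zpow_le_zpow_right_of_le_one₀ hε0 hε1 (by omega)
        have h4 : ε ^ (Phi α β τ + 24 * K) / Z ^ 22 ≤ ε * Λ := by
          rw [hΛ0, ← mul_div_assoc]
          exact div_le_div_of_nonneg_right h3 (by positivity)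
        have h5 := mul_le_mul_of_nonneg_left h4 (show 0 ≤ C0 by linarith)
        linarith
    · have hne : τ ≠ id := by
        rintro rfl
        exact hτ fun e => ⟨e, Or.inl ⟨rfl, rfl⟩⟩
      push Not at hτ
      obtain ⟨e, he⟩ := hτ
      have h1 : ∏ e, a (τ (src e)) (τ (dst e)) = 0 :=
        Finset.prod_eq_zero (Finset.mem_univ e) (by simp [a, he])
      have h2 := mul_le_mul_of_nonneg_left (hS1 τ) hp
      rw [h1] at h2
      rw [if_neg hne]
      linarith
  refine (Finset.sum_le_sum fun τ _ => key τ).trans (le_of_eq ?_)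
  rw [Finset.sum_add_distrib, Finset.sum_add_distrib, Finset.sum_ite_eq', if_pos (Finset.mem_univ _),
    Finset.sum_const, Finset.card_univ, nsmul_eq_mul, ← hM, ← Fintype.piFinset_univ,
    ← Finset.prod_univ_sum (fun _ => Finset.univ) (fun _ c => w c)]
  simp only [hw1, Finset.prod_const_one]
  rw [hε]
  field_simp
  ring

/-- the subdivided tetrahedron -/
def HH : SimpleGraph (Fin 22) where
  Adj := adjP
  symm := ⟨fun _ _ ⟨e, h⟩ => ⟨e, h.symm⟩⟩
  loopless := ⟨by decide +kernel⟩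

lemma edge_inj : Function.Injective fun e => s(src e, dst e) := by decide +kernel

lemma HH_card : HH.edgeSet.ncard = 24 := by
  have : HH.edgeSet = Set.range fun e => s(src e, dst e) := by
    ext s
    induction s using Sym2.ind with
    | h u v =>
      simp only [SimpleGraph.mem_edgeSet, Set.mem_range, Sym2.eq_iff]
      rfl
  rw [this, Set.ncard_range_of_injective edge_inj]
  simp

lemma HH_bip : HH.IsBipartite :=
  ⟨SimpleGraph.Coloring.mk (fun v => ⟨dep v % 2, Nat.mod_lt _ (by norm_num)⟩) (by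
    have : ∀ u v, adjP u v → dep u % 2 ≠ dep v % 2 := by decide +kernel
    intro u v h hc
    exact this u v h (congrArg Fin.val hc))⟩

theorem main_aux (κ n : ℕ) (hκ : 30000 ≤ κ) (hodd : Odd κ) (hn : n = 12 * κ) :
    ∃ N : ℕ, 0 < N ∧ ∃ G : SimpleGraph (Fin N),
      (Nat.card (HH →g G) : ℝ) / (N : ℝ) ^ 22 <
        (2 * (G.edgeSet.ncard : ℝ) / (N : ℝ) ^ 2) ^ 24 := by
  have hD : (1 : ℝ) ≤ DD n := by
    have : 0 < DD n := by unfold DD; positivity
    exact_mod_cast this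
  obtain ⟨w, a, γ, hγ, hw0, hw1, ha0, ha1, has, hfin⟩ := weights ((16 * DD n) ^ 6) ((1 / 2) ^ 48)
    (one_le_pow₀ (by linarith)) (by positivity) (pow_le_one₀ (by norm_num) (by norm_num))
  set δ : ℝ := min 1 (γ / (12 * (16 * DD n + 1) ^ 6)) with hδ
  have hδ0 : 0 < δ := lt_min one_pos (by positivity)
  obtain ⟨m, hm⟩ := exists_nat_gt (((n : ℝ) + 1) ^ 16 * DD n / δ)
  obtain ⟨p, hpm, hp⟩ := Nat.exists_infinite_primes (m + 3)
  haveI : Fact p.Prime := ⟨hp⟩
  have h2 : ringChar (ZMod p) ≠ 2 := by rw [ZMod.ringChar_zmod_n]; omega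
  let ψ : AddChar (ZMod p) ℂ := ZMod.stdAddChar
  have hψ : ψ.IsPrimitive := ZMod.isPrimitive_stdAddChar p
  have hq : ((n : ℝ) + 1) ^ 16 * DD n / Fintype.card (ZMod p) ≤ δ := by
    rw [ZMod.card]
    have hmp : (m : ℝ) ≤ p := by exact_mod_cast (show m ≤ p by omega)
    have hp0 : (0 : ℝ) < p := by exact_mod_cast hp.pos
    rw [div_lt_iff₀ hδ0] at hm
    rw [div_le_iff₀ hp0]
    nlinarith
  have hlt : ∑ y : Fin 22 → Fin 22 × (Fin 6 → Matrix (Fin n) (Fin n) (ZMod p)),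
      (∏ u, mu w (y u)) * ∏ e, WW ψ κ a (y (src e)) (y (dst e)) < 1 := by
    rw [dens_H ψ hψ h2 κ hodd]
    have h1 := hfin (SS (ZZ (ZMod p) n κ) a) (SZ_gen κ hκ hn a ha0) (SZ_aut κ hκ hn a ha0)
    have h3 : ∑ τ : Fin 22 → Fin 22, ∏ u, w (τ u) = 1 := by
      rw [← Fintype.piFinset_univ, ← Finset.prod_univ_sum (fun _ => Finset.univ) (fun _ c => w c)]
      simp only [hw1, Finset.prod_const_one]
    have h4 : 6 * δ * (16 * (DD n : ℝ) + 1) ^ 6 ≤ γ / 2 := by
      have : δ ≤ γ / (12 * (16 * DD n + 1) ^ 6) := min_le_right _ _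
      rw [le_div_iff₀ (by positivity)] at this
      linarith
    calc _ ≤ ∑ τ : Fin 22 → Fin 22, (∏ u, w (τ u)) * (SS (ZZ (ZMod p) n κ) a τ + γ / 2) := by
          refine Finset.sum_le_sum fun τ _ => mul_le_mul_of_nonneg_left ?_
            (Finset.prod_nonneg fun _ _ => hw0 _)
          exact (SS_close κ hκ hn a ha0 ha1 δ (min_le_left _ _) hq τ).trans (by linarith)
      _ = ∑ τ : Fin 22 → Fin 22, (∏ u, w (τ u)) * SS (ZZ (ZMod p) n κ) a τ + γ / 2 := by
          simp_rw [mul_add]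
          rw [Finset.sum_add_distrib, ← Finset.sum_mul, h3, one_mul]
      _ < 1 := by linarith
  obtain ⟨B, hB⟩ := Finite.bddAbove_range
    (fun x : (Fin 22 × (Fin 6 → Matrix (Fin n) (Fin n) (ZMod p))) ×
      (Fin 22 × (Fin 6 → Matrix (Fin n) (Fin n) (ZMod p))) => WW ψ κ a x.1 x.2)
  have hB1 : ∀ x y : Fin 22 × (Fin 6 → Matrix (Fin n) (Fin n) (ZMod p)),
      WW ψ κ a x y ≤ max B 1 := fun x y => le_trans (hB ⟨(x, y), rfl⟩) (le_max_left _ _)
  have hB0 : 0 < max B 1 := lt_max_of_lt_right one_pos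
  have hW0 : ∀ x y : Fin 22 × (Fin 6 → Matrix (Fin n) (Fin n) (ZMod p)), 0 ≤ WW ψ κ a x y :=
    fun x y => Finset.sum_nonneg fun o _ => mul_nonneg (pw_nonneg _ (ha0 _ _) (ha1 _ _) _)
      (Finset.prod_nonneg fun t _ => Ur_nonneg ψ hψ h2 κ hodd _ _)
  have := sample (mu (F := ZMod p) (n := n) w) (fun x y => WW ψ κ a x y / max B 1)
    (fun x y => by
      unfold WW
      simp only [has x.1 y.1, eo_comm x.1 y.1, Ur_neg ψ κ _ (x.2 _)])
    (fun x => div_nonneg (hw0 _) (by positivity)) (mu_sum w hw1)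
    (fun x y => div_nonneg (hW0 x y) hB0.le) (fun x y => (div_le_one hB0).2 (hB1 x y))
    src dst edge_inj HH (fun e => ⟨e, Or.inl ⟨rfl, rfl⟩⟩) (1 / max B 1) (by positivity)
    (by
      simp_rw [← mul_div_assoc]
      rw [← Finset.sum_div, dens_edge ψ hψ h2 κ hodd w hw1 a])
    (by
      simp_rw [Finset.prod_div_distrib, ← mul_div_assoc]
      rw [← Finset.sum_div, Finset.prod_const, Finset.card_univ, div_pow, one_pow]
      exact div_lt_div_of_pos_right hlt (by positivity))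
  simpa only [Fintype.card_fin] using this

end Vale.Agent.P050
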