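import Vale.Agent.P050.Count

namespace Vale.Agent.P050
open Module
open scoped ComplexOrder

variable {F : Type} [Field F] [Fintype F] [DecidableEq F] {n : ℕ}

noncomputable instance syFin : Fintype (Sy F n) := Fintype.ofFinite _

/-- quadratic Gauss sum -/
noncomputable def GG (ψ : AddChar F ℂ) (l : F) : ℂ := ∑ t : F, ψ (l * t ^ 2)

lemma GG_mul (ψ : AddChar F ℂ) (hψ : ψ.IsPrimitive) (h2 : ringChar F ≠ 2) (l : F) (hl : l ≠ 0) :
    GG ψ l * GG ψ (-l) = Fintype.card F := by
  have h2' : (2 : F) ≠ 0 := Ring.two_ne_zero h2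
  unfold GG
  rw [Finset.sum_mul_sum, Finset.sum_comm]
  have : ∀ u : F, ∑ t : F, ψ (l * t ^ 2) * ψ (-l * u ^ 2) =
      ∑ s : F, ψ (l * s ^ 2) * ψ (u * (2 * l * s)) := by
    intro u
    symm
    apply Fintype.sum_equiv (Equiv.addRight u)
    intro s
    rw [← AddChar.map_add_eq_mul, ← AddChar.map_add_eq_mul]
    congr 1
    simp only [Equiv.coe_addRight]
    ring
  simp_rw [this]
  rw [Finset.sum_comm]
  simp_rw [← Finset.mul_sum, AddChar.sum_mulShift _ hψ]
  rw [Finset.sum_eq_single 0]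
  · simp
  · intro s _ hs
    rw [if_neg (mul_ne_zero (mul_ne_zero h2' hl) hs)]
    simp
  · simp

lemma GG_char (ψ : AddChar F ℂ) (hψ : ψ.IsPrimitive) (h2 : ringChar F ≠ 2) (l : F) (hl : l ≠ 0) :
    GG ψ l = ∑ a : F, ((quadraticChar F a : ℤ) : ℂ) * ψ (l * a) := by
  unfold GG
  rw [← Finset.sum_fiberwise' Finset.univ (fun t : F => t ^ 2) (fun a => ψ (l * a))]
  have h1 : ∀ a : F, ∑ _t ∈ Finset.univ.filter (fun t : F => t ^ 2 = a), ψ (l * a) =
      ((quadraticChar F a : ℤ) : ℂ) * ψ (l * a) + ψ (a * l) := by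
    intro a
    rw [Finset.sum_const, nsmul_eq_mul]
    have := quadraticChar_card_sqrts h2 a
    have h3 : (Finset.univ.filter (fun t : F => t ^ 2 = a)) = {x : F | x ^ 2 = a}.toFinset := by
      ext; simp
    rw [h3]
    have h4 : (({x : F | x ^ 2 = a}.toFinset.card : ℤ) : ℂ) = ((quadraticChar F a + 1 : ℤ) : ℂ) := by
      rw [this]
    push_cast at h4
    rw [h4, mul_comm a l]
    ring
  simp_rw [h1]
  rw [Finset.sum_add_distrib, AddChar.sum_mulShift _ hψ, if_neg hl]
  simp

lemma GG_nonsq (ψ : AddChar F ℂ) (hψ : ψ.IsPrimitive) (h2 : ringChar F ≠ 2) (l : F) (hl : l ≠ 0)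
    (δ : F) (hδ : quadraticChar F δ = -1) : GG ψ (δ * l) = - GG ψ l := by
  have hδ0 : δ ≠ 0 := by
    rintro rfl
    simp at hδ
  rw [GG_char ψ hψ h2 _ (mul_ne_zero hδ0 hl), GG_char ψ hψ h2 _ hl, ← Finset.sum_neg_distrib]
  apply Fintype.sum_equiv (Equiv.mulLeft₀ δ hδ0)
  intro a
  simp only [Equiv.mulLeft₀_apply, map_mul, hδ]
  push_cast
  rw [show δ * l * a = l * (δ * a) by ring]
  ring

lemma addChar_sum {ι : Type} (ψ : AddChar F ℂ) (s : Finset ι) (f : ι → F) :
    ψ (∑ i ∈ s, f i) = ∏ i ∈ s, ψ (f i) := by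
  classical
  induction s using Finset.induction_on with
  | empty => simp
  | insert a s ha ih => rw [Finset.sum_insert ha, Finset.prod_insert ha, AddChar.map_add_eq_mul, ih]

lemma diag (ψ : AddChar F ℂ) (h2 : ringChar F ≠ 2) (X : Sy F n) :
    ∃ d : Fin n → F, rk X = Fintype.card {i // d i ≠ 0} ∧
      ∀ l : F, ∑ y : Fin n → F, ψ (l * (y ⬝ᵥ X.1.mulVec y)) = ∏ i, GG ψ (l * d i) := by
  have h2' : (2 : F) ≠ 0 := Ring.two_ne_zero h2
  letI : Invertible (2 : F) := invertibleOfNonzero h2'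
  have hs : LinearMap.IsSymm (Matrix.toBilin' X.1) := by
    constructor
    intro u v
    simp only [Matrix.toBilin'_apply', RingHom.id_apply]
    exact sy_comm X u v
  obtain ⟨b0, hb0⟩ := LinearMap.BilinForm.exists_orthogonal_basis hs
  let b : Basis (Fin n) F (Fin n → F) := b0.reindex (finCongr (by simp))
  have hb : ∀ i j, i ≠ j → b i ⬝ᵥ X.1.mulVec (b j) = 0 := by
    intro i j hij
    have := hb0 (show (finCongr (by simp : finrank F (Fin n → F) = n)).symm i ≠
      (finCongr (by simp : finrank F (Fin n → F) = n)).symm j by simpa using hij)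
    simp only [Function.onFun, LinearMap.IsOrtho, Matrix.toBilin'_apply'] at this
    simpa [b] using this
  let d : Fin n → F := fun i => b i ⬝ᵥ X.1.mulVec (b i)
  let P : Matrix (Fin n) (Fin n) F := (Pi.basisFun F (Fin n)).toMatrix b
  have hP : ∀ i j, P i j = b j i := by
    intro i j
    simp [P, Basis.toMatrix_apply]
  have hPu : IsUnit P.det := by
    have := (Pi.basisFun F (Fin n)).invertibleToMatrix b
    exact Matrix.isUnit_det_of_invertible P
  have hD : P.transpose * X.1 * P = Matrix.diagonal d := by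
    ext i j
    have : (P.transpose * X.1 * P) i j = b i ⬝ᵥ X.1.mulVec (b j) := by
      simp only [Matrix.mul_apply, Matrix.transpose_apply, hP, dotProduct, Matrix.mulVec,
        Finset.sum_mul, Finset.mul_sum]
      rw [Finset.sum_comm]
      simp only [mul_assoc]
    rw [this]
    by_cases hij : i = j
    · subst hij; simp [d]
    · rw [Matrix.diagonal_apply_ne _ hij, hb i j hij]
  refine ⟨d, ?_, ?_⟩
  · rw [← Matrix.rank_diagonal, ← hD, Matrix.rank_mul_eq_left_of_isUnit_det _ _ hPu,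
      Matrix.rank_mul_eq_right_of_isUnit_det _ _ (by rwa [Matrix.det_transpose])]
    rfl
  · intro l
    unfold GG
    rw [Finset.prod_univ_sum, Fintype.piFinset_univ]
    symm
    have hbij : Function.Bijective P.mulVec :=
      Finite.injective_iff_bijective.1
        (Matrix.mulVec_injective_of_isUnit ((Matrix.isUnit_iff_isUnit_det P).2 hPu))
    apply Fintype.sum_bijective _ hbij
    intro z
    rw [← addChar_sum]
    congr 1
    have : P.mulVec z ⬝ᵥ X.1.mulVec (P.mulVec z) = z ⬝ᵥ (P.transpose * X.1 * P).mulVec z := by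
      rw [← Matrix.mulVec_mulVec, ← Matrix.mulVec_mulVec, Matrix.dotProduct_mulVec z,
        Matrix.vecMul_transpose]
    rw [this, hD]
    simp only [dotProduct, Matrix.mulVec_diagonal, Finset.mul_sum]
    apply Finset.sum_congr rfl
    intro i _
    ring

/-- the pairing -/
def pair (X : Sy F n) (z : Matrix (Fin n) (Fin n) F) : F := ∑ i, ∑ j, X.1 i j * z i j

omit [Fintype F] [DecidableEq F] in
lemma pair_add (X : Sy F n) (z w : Matrix (Fin n) (Fin n) F) :
    pair X (z + w) = pair X z + pair X w := by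
  simp [pair, mul_add, Finset.sum_add_distrib]

omit [Fintype F] [DecidableEq F] in
lemma pair_sub (X : Sy F n) (z w : Matrix (Fin n) (Fin n) F) :
    pair X (z - w) = pair X z - pair X w := by
  simp [pair, mul_sub, Finset.sum_sub_distrib]

omit [Fintype F] [DecidableEq F] in
lemma add_pair (X Y : Sy F n) (z : Matrix (Fin n) (Fin n) F) :
    pair (X + Y) z = pair X z + pair Y z := by
  simp [pair, add_mul, Finset.sum_add_distrib]

omit [Fintype F] [DecidableEq F] in
lemma neg_pair (X : Sy F n) (z : Matrix (Fin n) (Fin n) F) :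
    pair (-X) z = pair X (-z) := by
  simp [pair]

omit [Fintype F] [DecidableEq F] in
lemma zero_pair (z : Matrix (Fin n) (Fin n) F) : pair (0 : Sy F n) z = 0 := by
  simp [pair]

omit [Fintype F] [DecidableEq F] in
lemma pair_vv (X : Sy F n) (l : F) (y : Fin n → F) :
    pair X (l • Matrix.vecMulVec y y) = l * (y ⬝ᵥ X.1.mulVec y) := by
  simp only [pair, Matrix.smul_apply, Matrix.vecMulVec_apply, smul_eq_mul, dotProduct,
    Matrix.mulVec, Finset.mul_sum]
  refine Finset.sum_congr rfl fun i _ => Finset.sum_congr rfl fun j _ => by ring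

/-- positive definiteness -/
def PD (ψ : AddChar F ℂ) (c : Sy F n → ℂ) : Prop :=
  ∀ z : Matrix (Fin n) (Fin n) F, 0 ≤ ∑ X, c X * ψ (pair X z)

lemma PD_one (ψ : AddChar F ℂ) : PD ψ (fun _ : Sy F n => 1) := by
  classical
  intro z
  let f : Sy F n →+ F := ⟨⟨fun X => pair X z, zero_pair z⟩, fun X Y => add_pair X Y z⟩
  have := AddChar.sum_eq_ite (ψ.compAddMonoidHom f)
  simp only [one_mul]
  have h2 : ∑ X : Sy F n, ψ (pair X z) = ∑ X, (ψ.compAddMonoidHom f) X := rfl
  rw [h2, this]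
  split_ifs
  · exact Nat.cast_nonneg _
  · exact le_rfl

lemma h_eq (ψ : AddChar F ℂ) (h2 : ringChar F ≠ 2) (δ : F) (ε : ℂ)
    (hG : ∀ l : F, l ≠ 0 → GG ψ l * GG ψ (-δ * l) = ε * Fintype.card F) (X : Sy F n) :
    (ε / Fintype.card F) ^ rk X = ((Fintype.card F : ℂ) ^ (2 * n))⁻¹ *
      ∑ y : Fin n → F, ∑ y' : Fin n → F,
        ψ (pair X ((1 : F) • Matrix.vecMulVec y y + (-δ) • Matrix.vecMulVec y' y')) := by
  obtain ⟨d, h1, h3⟩ := diag ψ h2 X
  have hq : (Fintype.card F : ℂ) ≠ 0 := by simp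
  simp_rw [pair_add, pair_vv, AddChar.map_add_eq_mul]
  rw [← Finset.sum_mul_sum, h3, h3, ← Finset.prod_mul_distrib]
  have : ∀ i, GG ψ (1 * d i) * GG ψ (-δ * d i) =
      (Fintype.card F : ℂ) ^ 2 * (if d i ≠ 0 then ε / Fintype.card F else 1) := by
    intro i
    split_ifs with h
    · rw [one_mul, hG _ h]; field_simp
    · push Not at h
      simp [h, GG, sq]
  simp_rw [this]
  rw [Finset.prod_mul_distrib, Finset.prod_const, Finset.prod_ite, Finset.prod_const,
    Finset.prod_const_one, h1, Fintype.card_subtype, Finset.card_univ, Fintype.card_fin, ← pow_mul]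
  field_simp

lemma PD_mul (ψ : AddChar F ℂ) (h2 : ringChar F ≠ 2) (δ : F) (ε : ℂ)
    (hG : ∀ l : F, l ≠ 0 → GG ψ l * GG ψ (-δ * l) = ε * Fintype.card F) (c : Sy F n → ℂ)
    (hc : PD ψ c) : PD ψ (fun X => c X * (ε / Fintype.card F) ^ rk X) := by
  intro z
  simp_rw [h_eq ψ h2 δ ε hG]
  have : ∀ X : Sy F n, c X * (((Fintype.card F : ℂ) ^ (2 * n))⁻¹ *
      ∑ y : Fin n → F, ∑ y' : Fin n → F,
        ψ (pair X ((1 : F) • Matrix.vecMulVec y y + (-δ) • Matrix.vecMulVec y' y'))) *
        ψ (pair X z) = ((Fintype.card F : ℂ) ^ (2 * n))⁻¹ * ∑ y : Fin n → F, ∑ y' : Fin n → F,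
        c X * ψ (pair X (((1 : F) • Matrix.vecMulVec y y + (-δ) • Matrix.vecMulVec y' y') + z)) := by
    intro X
    simp_rw [pair_add X _ z, AddChar.map_add_eq_mul, ← mul_assoc, ← Finset.sum_mul,
      ← Finset.mul_sum]
    ring
  simp_rw [this]
  rw [← Finset.mul_sum]
  apply mul_nonneg
  · rw [← Nat.cast_pow, ← Complex.ofReal_natCast, ← Complex.ofReal_inv]
    exact Complex.zero_le_real.2 (by positivity)
  rw [Finset.sum_comm]
  apply Finset.sum_nonneg
  intro y _
  rw [Finset.sum_comm]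
  exact Finset.sum_nonneg fun y' _ => hc _

lemma PD_pow (ψ : AddChar F ℂ) (h2 : ringChar F ≠ 2) (δ : F) (ε : ℂ)
    (hG : ∀ l : F, l ≠ 0 → GG ψ l * GG ψ (-δ * l) = ε * Fintype.card F) (κ : ℕ) :
    PD ψ (fun X : Sy F n => ((ε / Fintype.card F) ^ κ) ^ rk X) := by
  induction κ with
  | zero => simpa using PD_one ψ
  | succ k ih =>
    have := PD_mul ψ h2 δ ε hG _ ih
    simp_rw [pow_succ, mul_pow]
    exact this

/-- the complex kernel -/
noncomputable def Uc (ψ : AddChar F ℂ) (s : ℝ) (z : Matrix (Fin n) (Fin n) F) : ℂ :=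
  ∑ X : Sy F n, (s : ℂ) ^ rk X * ψ (pair X z)

omit [Fintype F] [DecidableEq F] in
lemma rk_eq_zero' (X : Sy F n) (h : rk X = 0) : X = 0 := by
  have h1 := finrank_Kr X
  have h2 : Kr X = ⊤ := Submodule.eq_top_of_finrank_eq (by simp; omega)
  ext j k
  have : (Pi.single k 1 : Fin n → F) ∈ Kr X := by rw [h2]; trivial
  rw [mem_Kr] at this
  have := congrFun this j
  simpa using this

lemma Uc_zero (ψ : AddChar F ℂ) (z : Matrix (Fin n) (Fin n) F) : Uc ψ 0 z = 1 := by
  unfold Uc
  rw [Finset.sum_eq_single 0]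
  · simp [rk, zero_pair]
  · intro X _ hX
    have : rk X ≠ 0 := fun h => hX (rk_eq_zero' X h)
    simp [this]
  · simp

lemma Uc_nonneg (ψ : AddChar F ℂ) (hψ : ψ.IsPrimitive) (h2 : ringChar F ≠ 2) (κ : ℕ)
    (hκ : Odd κ) (σ : SignType) (z : Matrix (Fin n) (Fin n) F) :
    0 ≤ Uc ψ ((σ : ℝ) / (Fintype.card F : ℝ) ^ κ) z := by
  cases σ with
  | zero => simp [Uc_zero]
  | neg =>
    obtain ⟨δ, hδ⟩ := quadraticChar_exists_neg_one h2
    have := PD_pow (n := n) ψ h2 δ (-1) (fun l hl => by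
      rw [show -δ * l = δ * (-l) by ring, GG_nonsq ψ hψ h2 _ (neg_ne_zero.2 hl) δ hδ, mul_neg,
        GG_mul ψ hψ h2 l hl]; ring) κ z
    simp only [div_pow, hκ.neg_one_pow] at this
    simpa [Uc, div_pow] using this
  | pos =>
    have := PD_pow (n := n) ψ h2 1 1 (fun l hl => by
      rw [show -1 * l = -l by ring, GG_mul ψ hψ h2 l hl]; ring) κ z
    simpa [Uc, div_pow] using this

lemma Uc_neg (ψ : AddChar F ℂ) (s : ℝ) (z : Matrix (Fin n) (Fin n) F) : Uc ψ s (-z) = Uc ψ s z := by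
  unfold Uc
  apply Fintype.sum_equiv (Equiv.neg _)
  intro X
  rw [Equiv.neg_apply, neg_pair, ← zero_sub X, rk_sub_comm, sub_zero]

lemma sum_pair (ψ : AddChar F ℂ) (hψ : ψ.IsPrimitive) (X : Sy F n) :
    ∑ z : Matrix (Fin n) (Fin n) F, ψ (pair X z) =
      if X = 0 then (Fintype.card (Matrix (Fin n) (Fin n) F) : ℂ) else 0 := by
  classical
  split_ifs with h
  · simp [h, zero_pair]
  · let f : Matrix (Fin n) (Fin n) F →+ F :=
      ⟨⟨fun z => pair X z, by simp [pair]⟩, fun z w => pair_add X z w⟩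
    have := AddChar.sum_eq_ite (ψ.compAddMonoidHom f)
    have h2 : ∑ z, ψ (pair X z) = ∑ z, (ψ.compAddMonoidHom f) z := rfl
    rw [h2, this, if_neg]
    intro h0
    obtain ⟨i, j, hij⟩ : ∃ i j, X.1 i j ≠ 0 := by
      by_contra hc
      push Not at hc
      exact h (Subtype.ext (by ext i j; exact hc i j))
    apply hψ hij
    ext t
    have h3 := DFunLike.congr_fun h0 (Matrix.single i j t)
    have h4 : pair X (Matrix.single i j t) = X.1 i j * t := by
      unfold pair
      rw [Finset.sum_eq_single i, Finset.sum_eq_single j]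
      · simp
      · intro b _ hb; simp [Matrix.single, Ne.symm hb]
      · simp
      · intro a _ ha; simp [Matrix.single, Ne.symm ha]
      · simp
    simp only [AddChar.compAddMonoidHom_apply, AddChar.zero_apply] at h3
    have h5 : f (Matrix.single i j t) = X.1 i j * t := h4
    rw [h5] at h3
    simpa using h3

end Vale.Agent.P050
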