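import Vale.Agent.P050.Lower
import Vale.Agent.P050.Gauss

namespace Vale.Agent.P050
open Module

/-- first endpoints -/
def src : Fin 24 → Fin 22 :=
  ![0, 4, 5, 6, 2, 7, 8, 9, 0, 10, 11, 1, 12, 13, 0, 14, 15, 16, 17, 1, 18, 19, 20, 21]
/-- second endpoints -/
def dst : Fin 24 → Fin 22 :=
  ![4, 5, 6, 1, 7, 8, 9, 3, 10, 11, 2, 12, 13, 3, 14, 15, 16, 17, 3, 18, 19, 20, 21, 2]
/-- left faces -/
def lf : Fin 24 → Fin 4 :=
  ![2, 2, 2, 2, 0, 0, 0, 0, 3, 3, 3, 2, 2, 2, 1, 1, 1, 1, 1, 0, 0, 0, 0, 0]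
/-- right faces -/
def rt : Fin 24 → Fin 4 :=
  ![3, 3, 3, 3, 1, 1, 1, 1, 1, 1, 1, 0, 0, 0, 2, 2, 2, 2, 2, 3, 3, 3, 3, 3]

/-- flows -/
def IsFlow {A : Type} [AddCommGroup A] (ξ : Fin 24 → A) : Prop :=
  ∀ u, ∑ e, (if src e = u then ξ e else 0) = ∑ e, (if dst e = u then ξ e else 0)

lemma flow_d {A : Type} [AddCommGroup A] (φ : Fin 4 → A) :
    IsFlow (fun e => φ (lf e) - φ (rt e)) := by
  intro u
  fin_cases u <;> simp [Fin.sum_univ_succ, src, dst, lf, rt]

lemma flow_ex {A : Type} [AddCommGroup A] (ξ : Fin 24 → A) (h : IsFlow ξ) :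
    ∃ φ : Fin 4 → A, (fun e => φ (lf e) - φ (rt e)) = ξ := by
  have h0 := h 0
  have h1 := h 1
  have h2 := h 2
  have h4 := h 4
  have h5 := h 5
  have h6 := h 6
  have h7 := h 7
  have h8 := h 8
  have h9 := h 9
  have h10 := h 10
  have h11 := h 11
  have h12 := h 12
  have h13 := h 13
  have h14 := h 14
  have h15 := h 15
  have h16 := h 16
  have h17 := h 17
  have h18 := h 18
  have h19 := h 19
  have h20 := h 20
  have h21 := h 21
  simp [Fin.sum_univ_succ, src, dst] at h0 h1 h2 h4 h5 h6 h7 h8 h9 h10 h11 h12 h13 h14 h15 h16 h17 h18 h19 h20 h21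
  refine ⟨![ξ 19, -ξ 8, ξ 0, 0], ?_⟩
  have g14 : ξ 14 = -ξ 8 - ξ 0 := by linear_combination (norm := abel) h0
  have g11 : ξ 11 = ξ 0 - ξ 19 := by linear_combination (norm := abel) h1 + h4 + h5 + h6
  have g4 : ξ 4 = ξ 19 + ξ 8 := by
    linear_combination (norm := abel) h2 + h10 + h11 + h18 + h19 + h20 + h21
  clear h0 h1 h2
  ext1 e
  fin_cases e <;> simp [lf, rt, *]

variable {F : Type} [Field F] [Fintype F] [DecidableEq F] {n : ℕ}

lemma flow_card (ξ : Fin 24 → Sy F n) [Decidable (IsFlow ξ)] :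
    (Finset.univ.filter (fun φ : Fin 4 → Sy F n => (fun e => φ (lf e) - φ (rt e)) = ξ)).card =
      if IsFlow ξ then Fintype.card (Sy F n) else 0 := by
  split_ifs with h
  · obtain ⟨φ0, rfl⟩ := flow_ex ξ h
    symm
    rw [← Finset.card_univ]
    apply Finset.card_bij (fun c _ => fun i => φ0 i + c)
    · intro c _
      simp
    · intro c _ c' _ hc
      exact add_left_cancel (congrFun hc 0)
    · intro φ hφ
      simp only [Finset.mem_filter, Finset.mem_univ, true_and] at hφ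
      refine ⟨φ 3 - φ0 3, Finset.mem_univ _, ?_⟩
      have a1 := congrFun hφ 19
      have a2 := congrFun hφ 8
      have a3 := congrFun hφ 0
      simp only [lf, rt] at a1 a2 a3
      ext1 i
      fin_cases i
      · show φ0 0 + (φ 3 - φ0 3) = φ 0
        have a1' : φ 0 - φ 3 = φ0 0 - φ0 3 := a1
        linear_combination (norm := abel) -a1'
      · show φ0 1 + (φ 3 - φ0 3) = φ 1
        have a2' : φ 3 - φ 1 = φ0 3 - φ0 1 := a2
        linear_combination (norm := abel) a2'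
      · show φ0 2 + (φ 3 - φ0 3) = φ 2
        have a3' : φ 2 - φ 3 = φ0 2 - φ0 3 := a3
        linear_combination (norm := abel) -a3'
      · show φ0 3 + (φ 3 - φ0 3) = φ 3
        abel
  · rw [Finset.card_eq_zero, Finset.filter_eq_empty_iff]
    rintro φ _ rfl
    exact h (flow_d φ)

omit [Fintype F] [DecidableEq F] in
lemma sum_pair_left {ι : Type} (s : Finset ι) (f : ι → Sy F n) (z : Matrix (Fin n) (Fin n) F) :
    pair (∑ i ∈ s, f i) z = ∑ i ∈ s, pair (f i) z :=
  map_sum (⟨⟨fun X => pair X z, zero_pair z⟩, fun X Y => add_pair X Y z⟩ : Sy F n →+ F) f s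

omit [Fintype F] [DecidableEq F] in
lemma sub_pair (X Y : Sy F n) (z : Matrix (Fin n) (Fin n) F) :
    pair (X - Y) z = pair X z - pair Y z := by
  simp [pair, sub_mul, Finset.sum_sub_distrib]

lemma flow_sum (ψ : AddChar F ℂ) (hψ : ψ.IsPrimitive) (s : Fin 24 → ℝ) :
    (Fintype.card (Sy F n) : ℂ) * ∑ x : Fin 22 → Matrix (Fin n) (Fin n) F,
      ∏ e, Uc ψ (s e) (x (src e) - x (dst e)) =
    (Fintype.card (Matrix (Fin n) (Fin n) F) : ℂ) ^ 22 *
      ∑ φ : Fin 4 → Sy F n, ∏ e, (s e : ℂ) ^ rk (φ (lf e) - φ (rt e)) := by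
  classical
  unfold Uc
  simp_rw [Finset.prod_univ_sum, Fintype.piFinset_univ]
  rw [Finset.sum_comm]
  have h1 : ∀ ξ : Fin 24 → Sy F n, ∑ x : Fin 22 → Matrix (Fin n) (Fin n) F,
      ∏ e, ((s e : ℂ) ^ rk (ξ e) * ψ (pair (ξ e) (x (src e) - x (dst e)))) =
      (∏ e, (s e : ℂ) ^ rk (ξ e)) *
        if IsFlow ξ then (Fintype.card (Matrix (Fin n) (Fin n) F) : ℂ) ^ 22 else 0 := by
    intro ξ
    simp_rw [Finset.prod_mul_distrib]
    rw [← Finset.mul_sum]
    congr 1
    have h2 : ∀ x : Fin 22 → Matrix (Fin n) (Fin n) F,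
        ∏ e, ψ (pair (ξ e) (x (src e) - x (dst e))) =
        ∏ u, ψ (pair (∑ e, (if src e = u then ξ e else 0) -
          ∑ e, (if dst e = u then ξ e else 0)) (x u)) := by
      intro x
      rw [← addChar_sum, ← addChar_sum]
      congr 1
      simp_rw [sub_pair, sum_pair_left, pair_sub, Finset.sum_sub_distrib]
      congr 1
      · rw [Finset.sum_comm]
        apply Finset.sum_congr rfl
        intro e _
        rw [Finset.sum_eq_single (src e)]
        · simp
        · intro u _ hu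
          rw [if_neg hu.symm, zero_pair]
        · simp
      · rw [Finset.sum_comm]
        apply Finset.sum_congr rfl
        intro e _
        rw [Finset.sum_eq_single (dst e)]
        · simp
        · intro u _ hu
          rw [if_neg hu.symm, zero_pair]
        · simp
    simp_rw [h2]
    rw [← Fintype.piFinset_univ, ← Finset.prod_univ_sum (fun _ => Finset.univ)
      (fun u z => ψ (pair (∑ e, (if src e = u then ξ e else 0) -
          ∑ e, (if dst e = u then ξ e else 0)) z))]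
    simp_rw [sum_pair ψ hψ, sub_eq_zero]
    split_ifs with h
    · rw [Finset.prod_congr rfl (fun u _ => if_pos (h u))]
      simp
    · unfold IsFlow at h
      push Not at h
      obtain ⟨u, hu⟩ := h
      exact Finset.prod_eq_zero (Finset.mem_univ u) (if_neg hu)
  simp_rw [h1]
  rw [← Finset.sum_fiberwise' Finset.univ
    (fun φ : Fin 4 → Sy F n => (fun e => φ (lf e) - φ (rt e)))
    (fun ξ => ∏ e, (s e : ℂ) ^ rk (ξ e)), Finset.mul_sum, Finset.mul_sum]
  apply Finset.sum_congr rfl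
  intro ξ _
  rw [Finset.sum_const, flow_card]
  split_ifs <;> simp
  ring

lemma pm_inj : Function.Injective pm := by
  intro r r' h
  have h1 := congrFun (congrFun h 0) 1
  have h2 := congrFun (congrFun h 0) 2
  have h3 := congrFun (congrFun h 1) 2
  have h4 := congrFun (congrFun h 0) 3
  simp [pm] at h1 h2 h3 h4
  ext i
  fin_cases i <;> simp <;> omega

lemma sum_LL (ρ : Fin 4 → Fin 4 → ℕ) (h : ∀ i j, ρ i j = ρ j i) :
    ∑ e, ρ (lf e) (rt e) = LL ρ := by
  have : ∑ e, ρ (lf e) (rt e) = ρ 2 3 + (ρ 2 3 + (ρ 2 3 + (ρ 2 3 + (ρ 0 1 + (ρ 0 1 + (ρ 0 1 + (ρ 0 1 +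
      (ρ 3 1 + (ρ 3 1 + (ρ 3 1 + (ρ 2 0 + (ρ 2 0 + (ρ 2 0 + (ρ 1 2 + (ρ 1 2 + (ρ 1 2 + (ρ 1 2 +
      (ρ 1 2 + (ρ 0 3 + (ρ 0 3 + (ρ 0 3 + (ρ 0 3 + (ρ 0 3 + 0))))))))))))))))))))))) := by
    simp only [Fin.sum_univ_succ, Fin.sum_univ_zero]
    rfl
  rw [this, h 3 1, h 2 0, LL]
  ring

/-- normalised count of a main pattern -/
noncomputable def Nw (F : Type) [Field F] [Fintype F] (n κ : ℕ) (r : Fin 4 → Fin 2) : ℝ :=
  (Pat F n (pm r)).ncard / (Nat.card (Sy F n) * (Fintype.card F : ℝ) ^ (κ * LL (pm r)))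

/-- the constant -/
def DD (n : ℕ) : ℕ := 128 ^ n * (n + 1) ^ 2

omit [DecidableEq F] in
lemma Nw_nonneg (κ : ℕ) (r : Fin 4 → Fin 2) : 0 ≤ Nw F n κ r := by unfold Nw; positivity

omit [DecidableEq F] in
lemma card_Sy_pos : 0 < Nat.card (Sy F n) := Nat.card_pos

omit [DecidableEq F] in
lemma Nw_le (κ : ℕ) (hκ : 30000 ≤ κ) (hn : n = 12 * κ) (r : Fin 4 → Fin 2) :
    Nw F n κ r ≤ DD n := by
  unfold Nw DD
  have h := (count_main (F := F) κ hκ hn (pm r)).1
  have := card_Sy_pos (F := F) (n := n)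
  have := Fintype.card_pos (α := F)
  rw [div_le_iff₀ (by positivity)]
  have h2 : ((Pat F n (pm r)).ncard : ℝ) ≤ ((128 ^ n * Nat.card (Sy F n) *
    Fintype.card F ^ (κ * LL (pm r)) * (n + 1) ^ 2 : ℕ) : ℝ) := by exact_mod_cast h
  refine h2.trans (le_of_eq ?_)
  push_cast; ring

omit [DecidableEq F] in
lemma Nw_zero (κ : ℕ) : Nw F n κ 0 = 1 := by
  unfold Nw
  rw [pat_zero]
  have : LL (pm 0) = 0 := by simp [LL, pm]
  have := card_Sy_pos (F := F) (n := n)
  rw [‹LL (pm 0) = 0›]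
  simp only [mul_zero, pow_zero, mul_one]
  field_simp

omit [DecidableEq F] in
lemma Nw_two (κ : ℕ) (hκ : 30000 ≤ κ) (hn : n = 12 * κ) (r : Fin 4 → Fin 2) (i j k : Fin 4)
    (hij : i ≠ j) (hki : k ≠ i) (hkj : k ≠ j)
    (hr : ∀ m, (r m).val = if m = i ∨ m = j then 1 else 0) : 1 / 16 ≤ Nw F n κ r := by
  have h := pat_two (F := F) (n := n) (by omega) r i j k hij hki hkj hr
  have hL : LL (pm r) = 24 := by
    simp only [LL, pm, hr]
    revert hij
    fin_cases i <;> fin_cases j <;> simp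
  unfold Nw
  have := card_Sy_pos (F := F) (n := n)
  have := Fintype.card_pos (α := F)
  rw [hL, le_div_iff₀ (by positivity), show κ * 24 = 2 * n by omega]
  have h2 : ((Nat.card (Sy F n) * Fintype.card F ^ (2 * n) : ℕ) : ℝ) ≤
    ((16 * (Pat F n (pm r)).ncard : ℕ) : ℝ) := by exact_mod_cast h
  push_cast at h2
  linarith

/-- main part -/
noncomputable def ZZ (F : Type) [Field F] [Fintype F] (n κ : ℕ) (σ : Fin 24 → SignType) : ℝ :=
  ∑ r : Fin 4 → Fin 2, Nw F n κ r * ∏ e, (σ e : ℝ) ^ pm r (lf e) (rt e)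

/-- full density -/
noncomputable def TT (F : Type) [Field F] [Fintype F] (n κ : ℕ) (σ : Fin 24 → SignType) : ℝ :=
  (∑ φ : Fin 4 → Sy F n,
    ∏ e, ((σ e : ℝ) / (Fintype.card F : ℝ) ^ κ) ^ rk (φ (lf e) - φ (rt e))) / Nat.card (Sy F n)

lemma abs_prod_sign (σ : Fin 24 → SignType) (m : Fin 24 → ℕ) :
    |∏ e, (σ e : ℝ) ^ m e| ≤ 1 := by
  rw [Finset.abs_prod]
  apply Finset.prod_le_one (fun _ _ => abs_nonneg _)
  intro e _
  rw [abs_pow]
  apply pow_le_one₀ (abs_nonneg _)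
  cases σ e <;> simp

omit [DecidableEq F] in
lemma TT_ZZ (κ : ℕ) (hκ : 30000 ≤ κ) (hn : n = 12 * κ) (σ : Fin 24 → SignType) :
    |TT F n κ σ - ZZ F n κ σ| ≤ (n + 1) ^ 16 * DD n / Fintype.card F := by
  classical
  set q : ℝ := (Fintype.card F : ℝ) with hq
  have hq0 : 0 < q := by have := Fintype.card_pos (α := F); positivity
  have hS : (0 : ℝ) < Nat.card (Sy F n) := by
    have := card_Sy_pos (F := F) (n := n); positivity
  let R : Finset (Fin 4 → Fin 4 → ℕ) :=
    Fintype.piFinset fun _ => Fintype.piFinset fun _ => Finset.range (n + 1)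
  let g : (Fin 4 → Fin 4 → ℕ) → ℝ := fun ρ =>
    ((Pat F n ρ).ncard / (Nat.card (Sy F n) * q ^ (κ * LL ρ))) * ∏ e, (σ e : ℝ) ^ ρ (lf e) (rt e)
  have h1 : TT F n κ σ = ∑ ρ ∈ R, g ρ := by
    unfold TT
    have hm : ∀ φ ∈ (Finset.univ : Finset (Fin 4 → Sy F n)),
        (fun i j => rk (φ i - φ j)) ∈ R := by
      intro φ _
      simp only [R, Fintype.mem_piFinset, Finset.mem_range]
      intro i j
      have := finrank_Kr (φ i - φ j)
      omega
    rw [← Finset.sum_fiberwise_of_maps_to hm, Finset.sum_div]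
    apply Finset.sum_congr rfl
    intro ρ _
    rw [Finset.sum_congr rfl (g := fun _ => (∏ e, (σ e : ℝ) ^ ρ (lf e) (rt e)) / q ^ (κ * LL ρ))]
    · rw [Finset.sum_const, nsmul_eq_mul]
      have : (Finset.univ.filter (fun φ : Fin 4 → Sy F n =>
          (fun i j => rk (φ i - φ j)) = ρ)).card = (Pat F n ρ).ncard := by
        rw [← Set.ncard_coe_finset]
        congr 1
        ext φ
        simp only [Finset.coe_filter, Finset.mem_univ, true_and, Pat,
          Set.mem_ofPred_eq, funext_iff]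
      rw [this]
      simp only [g]
      field_simp
    · intro φ hφ
      simp only [Finset.mem_filter, Finset.mem_univ, true_and] at hφ
      subst hφ
      simp_rw [div_pow, Finset.prod_div_distrib, ← pow_mul, Finset.prod_pow_eq_pow_sum,
        ← Finset.mul_sum]
      rw [sum_LL (fun i j => rk (φ i - φ j)) (fun i j => rk_sub_comm _ _)]
  have hM : Finset.univ.image pm ⊆ R := by
    intro ρ hρ
    obtain ⟨r, _, rfl⟩ := Finset.mem_image.1 hρ
    simp only [R, Fintype.mem_piFinset, Finset.mem_range]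
    intro i j
    unfold pm
    have := (r i).2
    have := (r j).2
    split_ifs <;> omega
  have h2 : ZZ F n κ σ = ∑ ρ ∈ Finset.univ.image pm, g ρ := by
    rw [Finset.sum_image (fun a _ b _ h => pm_inj h)]
    rfl
  rw [h1, h2, ← Finset.sum_sdiff hM, add_sub_cancel_right]
  refine (Finset.abs_sum_le_sum_abs _ _).trans ?_
  have h3 : ∀ ρ ∈ R \ Finset.univ.image pm, |g ρ| ≤ DD n / q := by
    intro ρ hρ
    have hnm : ∀ r, ρ ≠ pm r := by
      intro r hr
      exact (Finset.mem_sdiff.1 hρ).2 (Finset.mem_image.2 ⟨r, Finset.mem_univ _, hr.symm⟩)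
    have h := (count_main (F := F) κ hκ hn ρ).2 hnm
    have h4 : (((Pat F n ρ).ncard * Fintype.card F : ℕ) : ℝ) ≤ ((128 ^ n * Nat.card (Sy F n) *
      Fintype.card F ^ (κ * LL ρ) * (n + 1) ^ 2 : ℕ) : ℝ) := by exact_mod_cast h
    push_cast at h4
    simp only [g]
    rw [abs_mul, abs_of_nonneg (by positivity)]
    refine (mul_le_of_le_one_right (by positivity) (abs_prod_sign _ _)).trans ?_
    rw [div_le_div_iff₀ (by positivity) hq0]
    refine h4.trans (le_of_eq ?_)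
    unfold DD
    push_cast; ring
  refine (Finset.sum_le_card_nsmul _ _ _ h3).trans ?_
  rw [nsmul_eq_mul, mul_div_assoc]
  apply mul_le_mul_of_nonneg_right _ (by positivity)
  have h5 : (R \ Finset.univ.image pm).card ≤ (n + 1) ^ 16 := by
    refine (Finset.card_le_card Finset.sdiff_subset).trans (le_of_eq ?_)
    simp [R, Fintype.card_piFinset, ← pow_mul]
  exact_mod_cast h5

end Vale.Agent.P050
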