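import Vale.Agent.P050.CountMain

namespace Vale.Agent.P050
open Module

variable {F : Type} [Field F] [Fintype F] {n : ℕ}

omit [Fintype F] in
lemma rk_eq_zero (X : Sy F n) (h : rk X = 0) : X = 0 := by
  have h1 := finrank_Kr X
  have h2 : Kr X = ⊤ := Submodule.eq_top_of_finrank_eq (by simp; omega)
  ext j k
  have : (Pi.single k 1 : Fin n → F) ∈ Kr X := by rw [h2]; trivial
  rw [mem_Kr] at this
  have := congrFun this j
  simpa using this

lemma pat_zero : (Pat F n (pm 0)).ncard = Nat.card (Sy F n) := by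
  have : Pat F n (pm 0) = Set.range (fun c : Sy F n => fun _ : Fin 4 => c) := by
    ext φ
    constructor
    · intro h
      refine ⟨φ 0, ?_⟩
      ext1 i
      have := h 0 i
      have h2 : pm 0 0 i = 0 := by simp [pm]
      rw [h2] at this
      exact sub_eq_zero.1 (rk_eq_zero _ this)
    · rintro ⟨c, rfl⟩ i j
      rw [rk_self]; simp [pm]
  rw [this, Set.ncard_range_of_injective]
  intro c c' h
  exact congrFun h 0

/-- rank one form -/
def ov (v : Fin n → F) : Sy F n :=
  ⟨Matrix.vecMulVec v v, by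
    show (Matrix.vecMulVec v v).IsSymm
    ext i j
    simp [Matrix.vecMulVec_apply, mul_comm]⟩

omit [Fintype F] in
lemma ov_mulVec (v u : Fin n → F) : (ov v).1.mulVec u = (v ⬝ᵥ u) • v := by
  show (Matrix.vecMulVec v v).mulVec u = _
  rw [Matrix.vecMulVec_mulVec]
  simp

omit [Fintype F] in
lemma rk_of_orth (X : Sy F n) (U : Submodule F (Fin n → F))
    (h : ∀ u, X.1.mulVec u = 0 ↔ ∀ w ∈ U, w ⬝ᵥ u = 0) : rk X = finrank F U := by
  let I : Sy F n := ⟨1, Matrix.isSymm_one⟩
  have h1 := finrank_Orth I U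
  have h2 : Kr I = ⊥ := by
    ext v
    rw [mem_Kr]; simp [I]
  have h3 : Orth I U = Kr X := by
    ext v
    rw [mem_Orth, mem_Kr, h]; simp [I]
  rw [h2, inf_bot_eq, finrank_bot, h3] at h1
  have h4 := finrank_Kr X
  omega

omit [Fintype F] in
lemma rk_ov (v : Fin n → F) (hv : v ≠ 0) : rk (ov v) = 1 := by
  rw [rk_of_orth _ (Submodule.span F {v}), finrank_span_singleton hv]
  intro u
  rw [ov_mulVec]
  constructor
  · intro h w hw
    obtain ⟨a, rfl⟩ := Submodule.mem_span_singleton.1 hw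
    rw [smul_dotProduct, (smul_eq_zero.1 h).resolve_right hv, smul_zero]
  · intro h
    rw [h v (Submodule.mem_span_singleton_self v), zero_smul]

omit [Fintype F] in
lemma rk_ov2 (s : Fin 2 → Fin n → F) (hs : LinearIndependent F s) :
    rk (ov (s 0) - ov (s 1)) = 2 := by
  rw [rk_of_orth _ (Submodule.span F (Set.range s)), finrank_span_eq_card hs, Fintype.card_fin]
  intro u
  rw [AddSubgroup.coe_sub, Matrix.sub_mulVec, ov_mulVec, ov_mulVec]
  constructor
  · intro h w hw
    have := Fintype.linearIndependent_iff.1 hs ![s 0 ⬝ᵥ u, -(s 1 ⬝ᵥ u)]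
      (by simpa [Fin.sum_univ_two, sub_eq_add_neg] using h)
    have h0 : s 0 ⬝ᵥ u = 0 := by simpa using this 0
    have h1 : s 1 ⬝ᵥ u = 0 := by simpa using this 1
    obtain ⟨c, rfl⟩ := (Submodule.mem_span_range_iff_exists_fun F).1 hw
    simp [Fin.sum_univ_two, add_dotProduct, smul_dotProduct, h0, h1]
  · intro h
    rw [h (s 0) (Submodule.subset_span ⟨0, rfl⟩), h (s 1) (Submodule.subset_span ⟨1, rfl⟩)]
    simp

omit [Fintype F] in
lemma ov_inj (v w : Fin n → F) (hv : v ≠ 0) (h : ov w = ov v) : w = v ∨ w = -v := by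
  have h1 : ∀ i j, w i * w j = v i * v j := by
    intro i j
    have := congrArg (fun X : Sy F n => X.1 i j) h
    simpa [ov, Matrix.vecMulVec_apply] using this
  obtain ⟨i, hi⟩ := Function.ne_iff.1 hv
  have hi' : v i ≠ 0 := hi
  rcases mul_self_eq_mul_self_iff.1 (h1 i i) with h2 | h2
  · left
    ext j
    have := h1 i j
    rw [h2] at this
    exact mul_left_cancel₀ hi' this
  · right
    ext j
    have := h1 i j
    rw [h2] at this
    apply mul_left_cancel₀ hi'
    simp only [Pi.neg_apply]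
    linear_combination -this

lemma pat_two (hn : 2 ≤ n) (r : Fin 4 → Fin 2) (i j k : Fin 4) (hij : i ≠ j) (hki : k ≠ i)
    (hkj : k ≠ j) (hr : ∀ m, (r m).val = if m = i ∨ m = j then 1 else 0) :
    Nat.card (Sy F n) * Fintype.card F ^ (2 * n) ≤ 16 * (Pat F n (pm r)).ncard := by
  set q := Fintype.card F with hq'
  have hq : 2 ≤ q := two_le_q
  let P : Set (Sy F n × (Fin 2 → Fin n → F)) := Set.univ ×ˢ {s | LinearIndependent F s}
  let f : Sy F n × (Fin 2 → Fin n → F) → (Fin 4 → Sy F n) := fun p m =>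
    p.1 + (if m = i then ov (p.2 0) else if m = j then ov (p.2 1) else 0)
  have h := fib P (Pat F n (pm r)) f 4 ?_ ?_
  · have h1 : P.ncard = Nat.card (Sy F n) * ((q ^ n - 1) * (q ^ n - q)) := by
      rw [Set.ncard_prod, Set.ncard_univ]
      congr 1
      have := card_linearIndependent (K := F) (V := Fin n → F) (k := 2) (by simpa using hn)
      rw [← Nat.card_coe_set_eq]
      refine this.trans ?_
      simp [Fin.prod_univ_two, hq']
    have h2 : q ^ (2 * n) ≤ 4 * ((q ^ n - 1) * (q ^ n - q)) := by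
      have a1 : q * q ≤ q ^ n := by
        rw [← sq]; exact Nat.pow_le_pow_right (by omega) hn
      have a2 : 2 * q ≤ q * q := Nat.mul_le_mul_right _ hq
      have a3 : q ^ n ≤ 2 * (q ^ n - 1) := by omega
      have a4 : q ^ n ≤ 2 * (q ^ n - q) := by omega
      calc q ^ (2 * n) = q ^ n * q ^ n := by ring
        _ ≤ (2 * (q ^ n - 1)) * (2 * (q ^ n - q)) := Nat.mul_le_mul a3 a4
        _ = _ := by ring
    calc _ ≤ Nat.card (Sy F n) * (4 * ((q ^ n - 1) * (q ^ n - q))) := Nat.mul_le_mul_left _ h2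
      _ = 4 * P.ncard := by rw [h1]; ring
      _ ≤ 4 * (4 * (Pat F n (pm r)).ncard) := Nat.mul_le_mul_left _ h
      _ = _ := by ring
  · rintro ⟨c, s⟩ ⟨_, hs⟩ a b
    have hs : LinearIndependent F s := hs
    have r0 := rk_ov (s 0) (hs.ne_zero 0)
    have r1 := rk_ov (s 1) (hs.ne_zero 1)
    have r2 := rk_ov2 s hs
    have r3 : rk (ov (s 1) - ov (s 0)) = 2 := (rk_sub_comm _ _).trans r2
    have r4 : rk (-ov (s 0)) = 1 := by rw [← zero_sub, rk_sub_comm, sub_zero, r0]
    have r5 : rk (-ov (s 1)) = 1 := by rw [← zero_sub, rk_sub_comm, sub_zero, r1]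
    have r6 : rk (0 : Sy F n) = 0 := by rw [← sub_self (0 : Sy F n), rk_self]
    simp only [f, add_sub_add_left_eq_sub, pm, hr]
    by_cases hab : a = b
    · rw [hab, rk_self]; simp
    by_cases ai : a = i <;> by_cases aj : a = j <;> by_cases bi : b = i <;> by_cases bj : b = j <;>
      simp_all
  · rintro ⟨c, s⟩ ⟨_, hs⟩
    have hs : LinearIndependent F s := hs
    have hsub : {x | x ∈ P ∧ f x = f (c, s)} ⊆
        {(c, ![s 0, s 1]), (c, ![s 0, -s 1]), (c, ![-s 0, s 1]), (c, ![-s 0, -s 1])} := by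
      rintro ⟨c', s'⟩ ⟨_, h⟩
      have h1 := congrFun h k
      have h2 := congrFun h i
      have h3 := congrFun h j
      simp only [f, hki, hkj, hij.symm, if_false, if_true, add_zero] at h1 h2 h3
      subst h1
      have h4 := ov_inj _ _ (hs.ne_zero 0) (add_left_cancel h2)
      have h5 := ov_inj _ _ (hs.ne_zero 1) (add_left_cancel h3)
      have h6 : s' = ![s' 0, s' 1] := by ext1 m; fin_cases m <;> rfl
      rw [h6]
      rcases h4 with h4 | h4 <;> rcases h5 with h5 | h5 <;> simp [h4, h5]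
    refine (Set.ncard_le_ncard hsub).trans ?_
    refine (Set.ncard_insert_le _ _).trans (Nat.succ_le_succ ?_)
    refine (Set.ncard_insert_le _ _).trans (Nat.succ_le_succ ?_)
    refine (Set.ncard_insert_le _ _).trans (Nat.succ_le_succ ?_)
    simp

end Vale.Agent.P050
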