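import Vale.Agent.P050.Refine

namespace Vale.Agent.P050
open scoped ComplexOrder

variable {F : Type} [Field F] [Fintype F] [DecidableEq F] {n : ℕ}

/-- the real kernel -/
noncomputable def Ur (ψ : AddChar F ℂ) (κ : ℕ) (σ : SignType) (z : Matrix (Fin n) (Fin n) F) : ℝ :=
  (Uc ψ ((σ : ℝ) / (Fintype.card F : ℝ) ^ κ) z).re

section
variable (ψ : AddChar F ℂ) (hψ : ψ.IsPrimitive) (h2 : ringChar F ≠ 2) (κ : ℕ) (hκ : Odd κ)
include hψ h2 hκ

lemma Ur_coe (σ : SignType) (z : Matrix (Fin n) (Fin n) F) :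
    (Ur ψ κ σ z : ℂ) = Uc ψ ((σ : ℝ) / (Fintype.card F : ℝ) ^ κ) z := by
  have := Complex.eq_re_of_ofReal_le (r := 0) (by simpa using Uc_nonneg ψ hψ h2 κ hκ σ z)
  exact this.symm

lemma Ur_nonneg (σ : SignType) (z : Matrix (Fin n) (Fin n) F) : 0 ≤ Ur ψ κ σ z :=
  (Complex.nonneg_iff.1 (Uc_nonneg ψ hψ h2 κ hκ σ z)).1

lemma Ur_sum (σ : SignType) (x : Matrix (Fin n) (Fin n) F) :
    ∑ z, Ur ψ κ σ (x - z) = Fintype.card (Matrix (Fin n) (Fin n) F) := by
  classical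
  rw [show ∑ z, Ur ψ κ σ (x - z) = ∑ z, Ur ψ κ σ z from
    (Equiv.subLeft x).sum_comp (fun z => Ur ψ κ σ z)]
  apply Complex.ofReal_injective
  push_cast
  simp_rw [Ur_coe ψ hψ h2 κ hκ, Uc]
  rw [Finset.sum_comm]
  simp_rw [← Finset.mul_sum, sum_pair ψ hψ]
  rw [Finset.sum_eq_single 0]
  · simp [rk]
  · intro X _ hX; simp [hX]
  · simp

lemma TT_eq (σ : Fin 24 → SignType) :
    ∑ x : Fin 22 → Matrix (Fin n) (Fin n) F, ∏ e, Ur ψ κ (σ e) (x (src e) - x (dst e)) =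
      (Fintype.card (Matrix (Fin n) (Fin n) F) : ℝ) ^ 22 * TT F n κ σ := by
  have h := flow_sum (n := n) ψ hψ (fun e => (σ e : ℝ) / (Fintype.card F : ℝ) ^ κ)
  simp_rw [← Ur_coe ψ hψ h2 κ hκ] at h
  have hS : (0 : ℝ) < Nat.card (Sy F n) := by
    have := card_Sy_pos (F := F) (n := n); positivity
  unfold TT
  rw [← mul_div_assoc, eq_div_iff hS.ne', mul_comm, Nat.card_eq_fintype_card]
  exact_mod_cast h

end

lemma Ur_neg (ψ : AddChar F ℂ) (κ : ℕ) (σ : SignType) (x y : Matrix (Fin n) (Fin n) F) :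
    Ur ψ κ σ (x - y) = Ur ψ κ σ (y - x) := by
  unfold Ur
  rw [← neg_sub, Uc_neg]

/-- signs on an edge -/
def sgo (e : Fin 24) : Option (Fin 32) → Fin 6 → SignType
  | none => fun _ => 0
  | some ω => sg0 (pth e) (eta e) ω

/-- mixture weights -/
noncomputable def pw (a : ℝ) : Option (Fin 32) → ℝ
  | none => 1 - a
  | some _ => a / 32

lemma pw_sum (a : ℝ) : ∑ o, pw a o = 1 := by
  rw [Fintype.sum_option]
  simp [pw]
  ring

lemma pw_nonneg (a : ℝ) (h0 : 0 ≤ a) (h1 : a ≤ 1) (o : Option (Fin 32)) : 0 ≤ pw a o := by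
  cases o
  · simp only [pw]; linarith
  · simp only [pw]; positivity

lemma pw_mom (a : ℝ) (e : Fin 24) (m : Fin 6 → ℕ) :
    ∑ o, pw a o * ∏ t, (sgo e o t : ℝ) ^ m t =
      if m = 0 then 1 else a * MI (pth e) (eta e) m / 32 := by
  split_ifs with h
  · simp only [h, Pi.zero_apply, pow_zero, Finset.prod_const_one, mul_one, pw_sum]
  · rw [Fintype.sum_option]
    obtain ⟨t, ht⟩ := Function.ne_iff.1 h
    have ht' : m t ≠ 0 := ht
    rw [Finset.prod_eq_zero (Finset.mem_univ t) (by simp [sgo, ht'])]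
    simp only [pw, sgo, MI, mul_zero, zero_add]
    push_cast
    rw [← Finset.mul_sum]
    ring

lemma MI_abs (t0 : Fin 6) (η : SignType) (m : Fin 6 → ℕ) : |(MI t0 η m : ℝ)| ≤ 32 := by
  unfold MI
  push_cast
  refine (Finset.abs_sum_le_sum_abs _ _).trans ?_
  refine (Finset.sum_le_card_nsmul _ _ 1 ?_).trans (by simp)
  intro ω _
  rw [Finset.abs_prod]
  apply Finset.prod_le_one (fun _ _ => abs_nonneg _)
  intro t _
  rw [abs_pow]
  apply pow_le_one₀ (abs_nonneg _)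
  cases sg0 t0 η ω t <;> simp

/-- the kernel -/
noncomputable def WW (ψ : AddChar F ℂ) (κ : ℕ) (a : Fin 22 → Fin 22 → ℝ)
    (p p' : Fin 22 × (Fin 6 → Matrix (Fin n) (Fin n) F)) : ℝ :=
  ∑ o, pw (a p.1 p'.1) o * ∏ t, Ur ψ κ (sgo (eo p.1 p'.1) o t) (p.2 t - p'.2 t)

/-- vertex weights -/
noncomputable def mu (w : Fin 22 → ℝ) (p : Fin 22 × (Fin 6 → Matrix (Fin n) (Fin n) F)) : ℝ :=
  w p.1 / (Fintype.card (Matrix (Fin n) (Fin n) F) : ℝ) ^ 6

/-- class contribution -/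
noncomputable def SS (T : (Fin 24 → SignType) → ℝ) (a : Fin 22 → Fin 22 → ℝ)
    (τ : Fin 22 → Fin 22) : ℝ :=
  ∑ O : Fin 24 → Option (Fin 32), (∏ e, pw (a (τ (src e)) (τ (dst e))) (O e)) *
    ∏ t, T (fun e => sgo (eo (τ (src e)) (τ (dst e))) (O e) t)

lemma mu_sum (w : Fin 22 → ℝ) (hw : ∑ c, w c = 1) :
    ∑ p : Fin 22 × (Fin 6 → Matrix (Fin n) (Fin n) F), mu w p = 1 := by
  have : (0 : ℝ) < Fintype.card (Matrix (Fin n) (Fin n) F) := by
    have := Fintype.card_pos (α := Matrix (Fin n) (Fin n) F); positivity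
  rw [Fintype.sum_prod_type, ← hw]
  apply Finset.sum_congr rfl
  intro c _
  simp only [mu, Finset.sum_const, Finset.card_univ, Fintype.card_fun, Fintype.card_fin,
    nsmul_eq_mul]
  push_cast
  field_simp

section
variable (ψ : AddChar F ℂ) (hψ : ψ.IsPrimitive) (h2 : ringChar F ≠ 2) (κ : ℕ) (hκ : Odd κ)
include hψ h2 hκ

lemma dens_edge (w : Fin 22 → ℝ) (hw : ∑ c, w c = 1) (a : Fin 22 → Fin 22 → ℝ) :
    ∑ y : Fin 2 → Fin 22 × (Fin 6 → Matrix (Fin n) (Fin n) F),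
      (∏ u, mu w (y u)) * WW ψ κ a (y 0) (y 1) = 1 := by
  have hM : (0 : ℝ) < Fintype.card (Matrix (Fin n) (Fin n) F) := by
    have := Fintype.card_pos (α := Matrix (Fin n) (Fin n) F); positivity
  rw [← (piFinTwoEquiv fun _ => Fin 22 × (Fin 6 → Matrix (Fin n) (Fin n) F)).symm.sum_comp,
    Fintype.sum_prod_type, ← mu_sum (F := F) (n := n) w hw]
  apply Finset.sum_congr rfl
  intro p _
  simp only [Fin.prod_univ_two, piFinTwoEquiv_symm_apply, Fin.cons_zero, Fin.cons_one,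
    mul_assoc]
  rw [← Finset.mul_sum]
  conv_rhs => rw [← mul_one (mu w p)]
  congr 1
  rw [Fintype.sum_prod_type, ← hw]
  apply Finset.sum_congr rfl
  intro c _
  simp only [mu, WW]
  rw [← Finset.mul_sum, Finset.sum_comm]
  simp_rw [← Finset.mul_sum]
  have : ∀ o, ∑ x : Fin 6 → Matrix (Fin n) (Fin n) F,
      ∏ t, Ur ψ κ (sgo (eo p.1 c) o t) (p.2 t - x t) =
      (Fintype.card (Matrix (Fin n) (Fin n) F) : ℝ) ^ 6 := by
    intro o
    rw [← Fintype.piFinset_univ, ← Finset.prod_univ_sum (fun _ => Finset.univ)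
      (fun t z => Ur ψ κ (sgo (eo p.1 c) o t) (p.2 t - z))]
    simp [Ur_sum ψ hψ h2 κ hκ]
  simp_rw [this]
  rw [← Finset.sum_mul, pw_sum]
  field_simp

lemma dens_H (w : Fin 22 → ℝ) (a : Fin 22 → Fin 22 → ℝ) :
    ∑ y : Fin 22 → Fin 22 × (Fin 6 → Matrix (Fin n) (Fin n) F),
      (∏ u, mu w (y u)) * ∏ e, WW ψ κ a (y (src e)) (y (dst e)) =
      ∑ τ : Fin 22 → Fin 22, (∏ u, w (τ u)) * SS (TT F n κ) a τ := by
  have hM : (0 : ℝ) < Fintype.card (Matrix (Fin n) (Fin n) F) := by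
    have := Fintype.card_pos (α := Matrix (Fin n) (Fin n) F); positivity
  rw [← (Equiv.arrowProdEquivProdArrow (Fin 22) (fun _ => Fin 22)
    (fun _ => Fin 6 → Matrix (Fin n) (Fin n) F)).symm.sum_comp, Fintype.sum_prod_type]
  apply Finset.sum_congr rfl
  intro τ _
  simp only [Equiv.arrowProdEquivProdArrow_symm_apply, mu, WW, SS]
  rw [← Finset.mul_sum, Finset.prod_div_distrib, div_mul_eq_mul_div, mul_div_assoc]
  refine congrArg (_ * ·) ?_
  simp_rw [Finset.prod_univ_sum, Fintype.piFinset_univ, Finset.prod_mul_distrib]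
  rw [Finset.sum_comm, Finset.sum_div]
  apply Finset.sum_congr rfl
  intro O _
  rw [← Finset.mul_sum, mul_div_assoc]
  refine congrArg (_ * ·) ?_
  simp_rw [Finset.prod_comm (s := (Finset.univ : Finset (Fin 24)))]
  rw [← (Equiv.piComm (fun (_ : Fin 6) (_ : Fin 22) => Matrix (Fin n) (Fin n) F)).sum_comp]
  have : ∑ x : Fin 6 → Fin 22 → Matrix (Fin n) (Fin n) F, ∏ t, ∏ e,
      Ur ψ κ (sgo (eo (τ (src e)) (τ (dst e))) (O e) t) (x t (src e) - x t (dst e)) =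
      ∏ t : Fin 6, ((Fintype.card (Matrix (Fin n) (Fin n) F) : ℝ) ^ 22 *
        TT F n κ (fun e => sgo (eo (τ (src e)) (τ (dst e))) (O e) t)) := by
    simp_rw [← TT_eq ψ hψ h2 κ hκ]
    rw [Finset.prod_univ_sum, Fintype.piFinset_univ]
  refine (congrArg (· / _) this).trans ?_
  rw [Finset.prod_mul_distrib]
  simp only [Finset.prod_const, Finset.card_univ, Fintype.card_fin]
  field_simp

end

lemma prod_close {I : Type} [DecidableEq I] (s : Finset I) (z t : I → ℝ) (B δ : ℝ) (hB : 1 ≤ B)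
    (hδ : 0 ≤ δ) (hz : ∀ i, |z i| ≤ B) (ht : ∀ i, |t i| ≤ B) (h : ∀ i, |t i - z i| ≤ δ) :
    |∏ i ∈ s, t i - ∏ i ∈ s, z i| ≤ s.card * δ * B ^ s.card := by
  induction s using Finset.induction_on with
  | empty => simp
  | insert a s ha ih =>
    rw [Finset.prod_insert ha, Finset.prod_insert ha, Finset.card_insert_of_notMem ha]
    have h1 : |∏ i ∈ s, z i| ≤ B ^ s.card := by
      rw [Finset.abs_prod]
      have := Finset.prod_le_prod (s := s) (fun i _ => abs_nonneg (z i)) (fun i _ => hz i)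
      simpa using this
    have h3 : t a * ∏ i ∈ s, t i - z a * ∏ i ∈ s, z i =
        t a * (∏ i ∈ s, t i - ∏ i ∈ s, z i) + (t a - z a) * ∏ i ∈ s, z i := by ring
    rw [h3]
    refine (abs_add_le _ _).trans ?_
    rw [abs_mul, abs_mul]
    have h4 : |t a| * |∏ i ∈ s, t i - ∏ i ∈ s, z i| ≤ B * (s.card * δ * B ^ s.card) :=
      mul_le_mul (ht a) ih (abs_nonneg _) (by linarith)
    have h5 : |t a - z a| * |∏ i ∈ s, z i| ≤ δ * B ^ s.card :=
      mul_le_mul (h a) h1 (abs_nonneg _) hδ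
    have h6 : δ * B ^ s.card ≤ δ * B ^ s.card * B :=
      le_mul_of_one_le_right (by positivity) hB
    push_cast
    rw [pow_succ]
    nlinarith

omit [DecidableEq F] in
lemma ZZ_abs (κ : ℕ) (hκ : 30000 ≤ κ) (hn : n = 12 * κ) (σ : Fin 24 → SignType) :
    |ZZ F n κ σ| ≤ 16 * DD n := by
  unfold ZZ
  refine (Finset.abs_sum_le_sum_abs _ _).trans ?_
  refine (Finset.sum_le_card_nsmul _ _ (DD n : ℝ) ?_).trans (by simp)
  intro r _
  rw [abs_mul, abs_of_nonneg (Nw_nonneg _ _)]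
  exact (mul_le_of_le_one_right (Nw_nonneg _ _) (abs_prod_sign _ _)).trans (Nw_le κ hκ hn r)

omit [DecidableEq F] in
lemma SS_close (κ : ℕ) (hκ : 30000 ≤ κ) (hn : n = 12 * κ) (a : Fin 22 → Fin 22 → ℝ)
    (h0 : ∀ c c', 0 ≤ a c c') (h1 : ∀ c c', a c c' ≤ 1) (δ : ℝ) (hδ1 : δ ≤ 1)
    (hδ : (n + 1) ^ 16 * DD n / Fintype.card F ≤ δ) (τ : Fin 22 → Fin 22) :
    SS (TT F n κ) a τ ≤ SS (ZZ F n κ) a τ + 6 * δ * (16 * DD n + 1) ^ 6 := by
  have hδ0 : 0 ≤ δ := le_trans (by positivity) hδ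
  have hs : ∑ O : Fin 24 → Option (Fin 32), ∏ e, pw (a (τ (src e)) (τ (dst e))) (O e) = 1 := by
    rw [← Fintype.piFinset_univ, ← Finset.prod_univ_sum (fun _ => Finset.univ)
      (fun e o => pw (a (τ (src e)) (τ (dst e))) o)]
    simp only [pw_sum, Finset.prod_const_one]
  unfold SS
  have hX : 6 * δ * (16 * (DD n : ℝ) + 1) ^ 6 = ∑ O : Fin 24 → Option (Fin 32),
      (∏ e, pw (a (τ (src e)) (τ (dst e))) (O e)) * (6 * δ * (16 * (DD n : ℝ) + 1) ^ 6) := by
    rw [← Finset.sum_mul, hs, one_mul]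
  rw [hX, ← Finset.sum_add_distrib]
  apply Finset.sum_le_sum
  intro O _
  rw [← mul_add]
  apply mul_le_mul_of_nonneg_left _
    (Finset.prod_nonneg fun e _ => pw_nonneg _ (h0 _ _) (h1 _ _) _)
  have := prod_close Finset.univ
    (fun t => ZZ F n κ (fun e => sgo (eo (τ (src e)) (τ (dst e))) (O e) t))
    (fun t => TT F n κ (fun e => sgo (eo (τ (src e)) (τ (dst e))) (O e) t))
    (16 * DD n + 1) δ (le_add_of_nonneg_left (mul_nonneg (by norm_num) (Nat.cast_nonneg _))) hδ0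
    (fun t => (ZZ_abs κ hκ hn _).trans (by linarith)) (fun t => by
      have a1 := ZZ_abs (F := F) κ hκ hn (fun e => sgo (eo (τ (src e)) (τ (dst e))) (O e) t)
      have a2 := (TT_ZZ (F := F) κ hκ hn
        (fun e => sgo (eo (τ (src e)) (τ (dst e))) (O e) t)).trans hδ
      rw [abs_le] at *
      constructor <;> linarith [a1.1, a1.2, a2.1, a2.2])
    (fun t => (TT_ZZ κ hκ hn _).trans hδ)
  simp only [Finset.card_univ, Fintype.card_fin, Nat.cast_ofNat] at this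
  linarith [(abs_le.1 this).2]

omit [DecidableEq F] in
lemma SZ_eq (κ : ℕ) (a : Fin 22 → Fin 22 → ℝ) (τ : Fin 22 → Fin 22) :
    SS (ZZ F n κ) a τ = ∑ R : Fin 6 → Fin 4 → Fin 2, (∏ t, Nw F n κ (R t)) *
      ∏ e, if mm R e = 0 then 1 else a (τ (src e)) (τ (dst e)) * MT τ R e / 32 := by
  unfold SS ZZ MT
  simp_rw [← pw_mom, Finset.prod_univ_sum, Fintype.piFinset_univ, Finset.mul_sum]
  rw [Finset.sum_comm]
  apply Finset.sum_congr rfl
  intro R _
  apply Finset.sum_congr rfl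
  intro O _
  simp_rw [Finset.prod_mul_distrib]
  rw [Finset.prod_comm (s := (Finset.univ : Finset (Fin 24)))]
  simp only [mm]
  ring

omit [DecidableEq F] in
lemma SZ_split (κ : ℕ) (a : Fin 22 → Fin 22 → ℝ) (τ : Fin 22 → Fin 22) :
    SS (ZZ F n κ) a τ = 1 + ∑ R ∈ Finset.univ.erase (0 : Fin 6 → Fin 4 → Fin 2),
      (∏ t, Nw F n κ (R t)) *
      ∏ e, if mm R e = 0 then 1 else a (τ (src e)) (τ (dst e)) * MT τ R e / 32 := by
  rw [SZ_eq, ← Finset.add_sum_erase _ _ (Finset.mem_univ 0)]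
  congr 1
  have : ∀ e, mm 0 e = 0 := by
    intro e; ext t; simp [mm_eq]
  simp [this, Nw_zero]

omit [DecidableEq F] in
lemma SZ_gen (κ : ℕ) (hκ : 30000 ≤ κ) (hn : n = 12 * κ) (a : Fin 22 → Fin 22 → ℝ)
    (h0 : ∀ c c', 0 ≤ a c c') (τ : Fin 22 → Fin 22) :
    SS (ZZ F n κ) a τ ≤ 1 + (16 * DD n) ^ 6 * ∏ e, a (τ (src e)) (τ (dst e)) := by
  rw [SZ_split]
  have hp : 0 ≤ ∏ e, a (τ (src e)) (τ (dst e)) := Finset.prod_nonneg fun _ _ => h0 _ _
  gcongr
  refine (Finset.sum_le_card_nsmul _ _ ((DD n : ℝ) ^ 6 * ∏ e, a (τ (src e)) (τ (dst e))) ?_).trans ?_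
  · intro R hR
    have hR0 := (Finset.mem_erase.1 hR).1
    have hN : ∏ t, Nw F n κ (R t) ≤ (DD n : ℝ) ^ 6 := by
      have := Finset.prod_le_prod (s := Finset.univ) (fun t _ => Nw_nonneg (F := F) (n := n) κ (R t))
        (fun t _ => Nw_le κ hκ hn (R t))
      simpa using this
    by_cases h : ∀ e, mm R e = 0 ∨ MT τ R e ≠ 0
    · have h3 := cover τ R hR0 h
      refine (le_abs_self _).trans ?_
      rw [abs_mul, abs_of_nonneg (Finset.prod_nonneg fun t _ => Nw_nonneg κ (R t)),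
        Finset.abs_prod]
      apply mul_le_mul hN _ (Finset.prod_nonneg fun _ _ => abs_nonneg _) (by positivity)
      apply Finset.prod_le_prod (fun _ _ => abs_nonneg _)
      intro e _
      rw [if_neg (h3 e).1, abs_div, abs_mul, abs_of_nonneg (h0 _ _)]
      have := MI_abs (pth (eo (τ (src e)) (τ (dst e)))) (eta (eo (τ (src e)) (τ (dst e)))) (mm R e)
      have h4 := h0 (τ (src e)) (τ (dst e))
      rw [div_le_iff₀ (by norm_num)]
      exact mul_le_mul_of_nonneg_left (by simpa [MT] using this) h4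
    · push Not at h
      obtain ⟨e, h3, h4⟩ := h
      rw [Finset.prod_eq_zero (Finset.mem_univ e) (by simp [h3, h4]), mul_zero]
      positivity
  · rw [nsmul_eq_mul, mul_pow, mul_assoc]
    apply mul_le_mul_of_nonneg_right _ (by positivity)
    have : (Finset.univ.erase (0 : Fin 6 → Fin 4 → Fin 2)).card ≤ 16 ^ 6 :=
      Finset.card_erase_le.trans (by simp)
    exact_mod_cast this

omit [DecidableEq F] in
lemma SZ_aut (κ : ℕ) (hκ : 30000 ≤ κ) (hn : n = 12 * κ) (a : Fin 22 → Fin 22 → ℝ)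
    (h0 : ∀ c c', 0 ≤ a c c') (k : Fin 4) :
    SS (ZZ F n κ) a (aut k) ≤ 1 - (1 / 2) ^ 48 * ∏ e, a (aut k (src e)) (aut k (dst e)) := by
  rw [SZ_split]
  have hp : 0 ≤ ∏ e, a (aut k (src e)) (aut k (dst e)) := Finset.prod_nonneg fun _ _ => h0 _ _
  have hR0 : RR k ≠ 0 := by clear hp; revert k; decide +kernel
  rw [Finset.sum_eq_single (RR k)]
  · have h3 : ∀ e, mm (RR k) e ≠ 0 := by
      clear hp hR0; revert k; decide +kernel
    simp only [h3, if_false]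
    rw [Finset.prod_div_distrib, Finset.prod_mul_distrib, ← Int.cast_prod, prod_RR]
    have hN : (1 / 16 : ℝ) ^ 6 ≤ ∏ t, Nw F n κ (RR k t) := by
      have := Finset.prod_le_prod (s := Finset.univ) (f := fun _ : Fin 6 => (1 / 16 : ℝ))
        (g := fun t => Nw F n κ (RR k t)) (fun t _ => by norm_num) (fun t _ => by
          have b1 : ∀ k t, ∃ j, xr k (fa t) ≠ xr k (fb t) ∧ j ≠ xr k (fa t) ∧ j ≠ xr k (fb t) := by
            decide +kernel
          obtain ⟨j, c1, c2, c3⟩ := b1 k t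
          refine Nw_two κ hκ hn _ _ _ j c1 c2 c3 ?_
          intro m
          unfold RR
          split_ifs <;> rfl)
      simpa using this
    simp only [Finset.prod_const, Finset.card_univ, Fintype.card_fin]
    push_cast
    nlinarith [mul_le_mul_of_nonneg_right hN hp]
  · intro R hR hne
    by_cases h : ∀ e, mm R e = 0 ∨ MT (aut k) R e ≠ 0
    · exact absurd (cover_aut k R (Finset.mem_erase.1 hR).1 h) hne
    · push Not at h
      obtain ⟨e, h3, h4⟩ := h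
      rw [Finset.prod_eq_zero (Finset.mem_univ e) (by simp [h3, h4]), mul_zero]
  · intro h
    exact absurd (Finset.mem_erase.2 ⟨hR0, Finset.mem_univ _⟩) h

end Vale.Agent.P050
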