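import Vale.Agent.P050.Flow

namespace Vale.Agent.P050

/-- adjacency of classes -/
def adjP (c c' : Fin 22) : Prop := ∃ e, (src e = c ∧ dst e = c') ∨ (src e = c' ∧ dst e = c)

instance decAdj (c c' : Fin 22) : Decidable (adjP c c') := by unfold adjP; infer_instance

/-- the linear functional -/
def Phi (α : Fin 22 → ℤ) (β : Fin 22 → Fin 22 → ℤ) (τ : Fin 22 → Fin 22) : ℤ :=
  ∑ u, α (τ u) + ∑ e, β (τ (src e)) (τ (dst e))

/-- colourings forced by a functional -/
def Good (col : Fin 22 → Fin 6) : Prop :=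
  ∃ (α : Fin 22 → ℤ) (β : Fin 22 → Fin 22 → ℤ), (∀ c c', β c c' = β c' c) ∧
    ∀ τ, Phi α β id ≤ Phi α β τ ∧ (Phi α β τ ≤ Phi α β id → ∀ u, col (τ u) = col u)

/-- coloured degree -/
def dc (col : Fin 22 → Fin 6) (c : Fin 6) (u : Fin 22) : ℤ :=
  ∑ e, ((if src e = u then (if col (dst e) = c then 1 else 0) else 0) +
    (if dst e = u then (if col (src e) = c then 1 else 0) else 0))

lemma dc_sum (col : Fin 22 → Fin 6) (g : Fin 6 → Fin 22 → ℤ) :
    ∑ u, ∑ c, dc col c u * g c u =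
      ∑ e, (g (col (dst e)) (src e) + g (col (src e)) (dst e)) := by
  unfold dc
  simp_rw [Finset.sum_mul]
  calc _ = ∑ u, ∑ e, ∑ c, ((if src e = u then (if col (dst e) = c then 1 else 0) else 0) +
        (if dst e = u then (if col (src e) = c then (1 : ℤ) else 0) else 0)) * g c u :=
        Finset.sum_congr rfl fun u _ => Finset.sum_comm
    _ = ∑ e, ∑ u, ∑ c, ((if src e = u then (if col (dst e) = c then 1 else 0) else 0) +
        (if dst e = u then (if col (src e) = c then (1 : ℤ) else 0) else 0)) * g c u :=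
        Finset.sum_comm
    _ = _ := by
      apply Finset.sum_congr rfl
      intro e _
      simp only [add_mul, Finset.sum_add_distrib, ite_mul, one_mul, zero_mul,
        Finset.sum_ite_irrel, Finset.sum_ite_eq, Finset.mem_univ, if_true, Finset.sum_const_zero]

lemma good_step (col col' : Fin 22 → Fin 6) (h : Good col)
    (hr : ∀ u u', col u = col u' → (∀ c, dc col c u = dc col c u') → col' u = col' u') :
    Good col' := by
  obtain ⟨α, β, hβ, h⟩ := h
  let α1 : Fin 22 → ℤ := fun u => ∑ c, dc col c u ^ 2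
  let β1 : Fin 22 → Fin 22 → ℤ := fun c c' => -2 * (dc col (col c') c + dc col (col c) c')
  have key : ∀ τ : Fin 22 → Fin 22, (∀ u, col (τ u) = col u) →
      Phi α1 β1 τ = ∑ u, ∑ c, (dc col c (τ u) - dc col c u) ^ 2 - ∑ u, ∑ c, dc col c u ^ 2 := by
    intro τ hτ
    unfold Phi
    simp only [α1, β1, hτ]
    rw [← Finset.mul_sum, ← dc_sum col (fun c u => dc col c (τ u)), Finset.mul_sum,
      ← Finset.sum_add_distrib, ← Finset.sum_sub_distrib]
    apply Finset.sum_congr rfl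
    intro u _
    rw [Finset.mul_sum, ← Finset.sum_add_distrib, ← Finset.sum_sub_distrib]
    apply Finset.sum_congr rfl
    intro c _
    ring
  obtain ⟨B, hB⟩ := Finite.bddAbove_range (fun τ => Phi α1 β1 id - Phi α1 β1 τ + 1)
  have hB' : ∀ τ, Phi α1 β1 id - Phi α1 β1 τ + 1 ≤ B := fun τ => hB ⟨τ, rfl⟩
  have hB0 : 1 ≤ B := by simpa using hB' id
  have hlin : ∀ τ, Phi (fun u => B * α u + α1 u) (fun c c' => B * β c c' + β1 c c') τ =
      B * Phi α β τ + Phi α1 β1 τ := by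
    intro τ
    unfold Phi
    simp only [Finset.sum_add_distrib, ← Finset.mul_sum]
    ring
  refine ⟨fun u => B * α u + α1 u, fun c c' => B * β c c' + β1 c c', ?_, ?_⟩
  · intro c c'
    simp only [β1, hβ c c']
    ring
  intro τ
  rw [hlin, hlin]
  by_cases hc : Phi α β τ ≤ Phi α β id
  · have h1 := (h τ).2 hc
    have h2 := key τ h1
    have h3 := key id (fun _ => rfl)
    have h4 : Phi α β τ = Phi α β id := le_antisymm hc (h τ).1
    simp only [id, sub_self, ne_eq, OfNat.ofNat_ne_zero, not_false_eq_true, zero_pow,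
      Finset.sum_const_zero, zero_sub] at h3
    have h5 : 0 ≤ ∑ u, ∑ c, (dc col c (τ u) - dc col c u) ^ 2 :=
      Finset.sum_nonneg fun _ _ => Finset.sum_nonneg fun _ _ => sq_nonneg _
    rw [h4]
    refine ⟨by linarith, fun h6 u => ?_⟩
    have h7 : ∑ u, ∑ c, (dc col c (τ u) - dc col c u) ^ 2 = 0 := by linarith
    rw [Finset.sum_eq_zero_iff_of_nonneg
      (fun _ _ => Finset.sum_nonneg fun _ _ => sq_nonneg _)] at h7
    have h8 := h7 u (Finset.mem_univ _)
    rw [Finset.sum_eq_zero_iff_of_nonneg (fun _ _ => sq_nonneg _)] at h8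
    apply hr _ _ (h1 u)
    intro c
    have := h8 c (Finset.mem_univ _)
    exact sub_eq_zero.1 (pow_eq_zero_iff (by norm_num) |>.1 this)
  · push Not at hc
    have h1 := hB' τ
    have h2 : B * (Phi α β id + 1) ≤ B * Phi α β τ := mul_le_mul_of_nonneg_left hc (by omega)
    constructor
    · linarith
    · intro h3; exfalso; linarith

/-- colouring, level 1 -/
def col1 : Fin 22 → Fin 6 := ![0, 0, 0, 0, 1, 1, 1, 1, 1, 1, 1, 1, 1, 1, 1, 1, 1, 1, 1, 1, 1, 1]
/-- colouring, level 2 -/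
def col2 : Fin 22 → Fin 6 := ![0, 0, 0, 0, 1, 2, 1, 1, 2, 1, 1, 1, 1, 1, 1, 2, 2, 1, 1, 2, 2, 1]
/-- colouring, level 3 -/
def col3 : Fin 22 → Fin 6 := ![0, 0, 0, 0, 2, 3, 2, 2, 3, 2, 1, 1, 1, 1, 2, 4, 4, 2, 2, 4, 4, 2]
/-- colouring, level 4 -/
def col4 : Fin 22 → Fin 6 := ![0, 0, 0, 0, 2, 3, 2, 2, 3, 2, 1, 1, 1, 1, 5, 4, 4, 5, 5, 4, 4, 5]

lemma good4 : Good col4 := by
  have h0 : Good (fun _ => 0) := ⟨0, 0, fun _ _ => rfl, fun τ => by simp [Phi]⟩
  have h1 : Good col1 := good_step _ _ h0 (by decide +kernel)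
  have h2 : Good col2 := good_step _ _ h1 (by decide +kernel)
  have h3 : Good col3 := good_step _ _ h2 (by decide +kernel)
  exact good_step _ _ h3 (by decide +kernel)

/-- the four automorphisms -/
def aut : Fin 4 → Fin 22 → Fin 22 :=
  ![![0, 1, 2, 3, 4, 5, 6, 7, 8, 9, 10, 11, 12, 13, 14, 15, 16, 17, 18, 19, 20, 21],
    ![1, 0, 3, 2, 6, 5, 4, 9, 8, 7, 12, 13, 10, 11, 18, 19, 20, 21, 14, 15, 16, 17],
    ![2, 3, 0, 1, 7, 8, 9, 4, 5, 6, 11, 10, 13, 12, 21, 20, 19, 18, 17, 16, 15, 14],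
    ![3, 2, 1, 0, 9, 8, 7, 6, 5, 4, 13, 12, 11, 10, 17, 16, 15, 14, 21, 20, 19, 18]]

/-- parent in a spanning tree -/
def par : Fin 22 → Fin 22 :=
  ![0, 12, 11, 17, 0, 4, 1, 2, 7, 3, 0, 10, 13, 3, 0, 14, 15, 16, 1, 18, 19, 20]
/-- depth in the spanning tree -/
def dep : Fin 22 → ℕ := ![0, 8, 3, 5, 1, 2, 9, 4, 5, 6, 1, 2, 7, 6, 1, 2, 3, 4, 9, 10, 11, 12]

lemma aut_zero : aut 0 = id := by decide +kernel

lemma is_aut (τ : Fin 22 → Fin 22) (h1 : ∀ e, adjP (τ (src e)) (τ (dst e)))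
    (h2 : ∀ u, col4 (τ u) = col4 u) : ∃ k, τ = aut k := by
  have a1 : ∀ u, col4 u = col4 0 → ∃ k, u = aut k 0 := by decide +kernel
  obtain ⟨k, hk⟩ := a1 _ (h2 0)
  refine ⟨k, ?_⟩
  have a2 : ∀ v, v ≠ 0 → dep (par v) < dep v ∧ adjP (par v) v := by decide +kernel
  have a3 : ∀ k v, v ≠ 0 → ∀ w, adjP (aut k (par v)) w → col4 w = col4 v → w = aut k v := by
    decide +kernel
  have a4 : ∀ c c', adjP c c' → adjP (τ c) (τ c') := by
    rintro c c' ⟨e, ⟨rfl, rfl⟩ | ⟨rfl, rfl⟩⟩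
    · exact h1 e
    · obtain ⟨e', h⟩ := h1 e
      exact ⟨e', h.symm⟩
  have : ∀ d v, dep v = d → τ v = aut k v := by
    intro d
    induction d using Nat.strong_induction_on with
    | _ d ih =>
      intro v hv
      by_cases h0 : v = 0
      · rw [h0, hk]
      · have b1 := a2 v h0
        have b2 := ih _ (hv ▸ b1.1) (par v) rfl
        exact a3 k v h0 _ (b2 ▸ a4 _ _ b1.2) (h2 v)
  ext1 v
  exact this _ v rfl

/-- path of an edge -/
def pth : Fin 24 → Fin 6 :=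
  ![0, 0, 0, 0, 1, 1, 1, 1, 2, 2, 2, 3, 3, 3, 4, 4, 4, 4, 4, 5, 5, 5, 5, 5]

/-- opposite path -/
def opp : Fin 6 → Fin 6 := ![1, 0, 3, 2, 5, 4]

/-- the edge joining two classes -/
def eo (c c' : Fin 22) : Fin 24 :=
  ((List.finRange 24).find? fun e =>
    (src e = c ∧ dst e = c') ∨ (src e = c' ∧ dst e = c)).getD 0

lemma eo_comm : ∀ c c', eo c c' = eo c' c := by decide +kernel

/-- sign of a bit -/
def sb (ω j : ℕ) : SignType := if ω / 2 ^ j % 2 = 0 then 1 else -1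

/-- the sign pattern on an edge of path `t0` with sign `η` -/
def sg0 (t0 : Fin 6) (η : SignType) (ω : Fin 32) (t : Fin 6) : SignType :=
  if t = t0 then (if sb ω 0 = 1 then sb ω 1 else 0)
  else if t = opp t0 then 0
  else if t = t0 + 2 then sb ω 2
  else if t = opp (t0 + 2) then sb ω 3
  else if t = t0 + 4 then sb ω 4
  else η * sb ω 0 * sb ω 2 * sb ω 3 * sb ω 4

/-- the sign of an edge -/
def eta (e : Fin 24) : SignType := if e = 0 then -1 else 1

/-- integer moments -/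
def MI (t0 : Fin 6) (η : SignType) (m : Fin 6 → ℕ) : ℤ :=
  ∑ ω : Fin 32, ∏ t, (sg0 t0 η ω t : ℤ) ^ m t

lemma MI_small (t0 : Fin 6) (e : Fin 24) (m : Fin 6 → ℕ) (h1 : ∀ t, m t ≤ 1) (h2 : m ≠ 0) :
    MI t0 (eta e) m = 0 := by
  have : ∀ (t0 : Fin 6) (b : Bool) (m : Fin 6 → Fin 2),
      m = 0 ∨ MI t0 (if b then -1 else 1) (fun t => (m t).val) = 0 := by decide +kernel
  rcases this t0 (decide (e = 0)) (fun t => ⟨m t, by have := h1 t; omega⟩) with h | h
  · exfalso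
    apply h2
    ext t
    simpa using congrArg Fin.val (congrFun h t)
  · simpa [eta] using h

lemma MI_opp (t0 : Fin 6) (η : SignType) (m : Fin 6 → ℕ) (h : m (opp t0) ≠ 0) :
    MI t0 η m = 0 := by
  apply Finset.sum_eq_zero
  intro ω _
  apply Finset.prod_eq_zero (Finset.mem_univ (opp t0))
  have : opp t0 ≠ t0 := by clear h; revert t0; decide
  simp [sg0, this, h]

/-- multiplicity pattern of a labelling on an edge -/
def mm (R : Fin 6 → Fin 4 → Fin 2) (e : Fin 24) (t : Fin 6) : ℕ := pm (R t) (lf e) (rt e)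

/-- first face of a path -/
def fa : Fin 6 → Fin 4 := ![2, 0, 3, 2, 1, 0]
/-- second face of a path -/
def fb : Fin 6 → Fin 4 := ![3, 1, 1, 0, 2, 3]
/-- Klein four group -/
def xr : Fin 4 → Fin 4 → Fin 4 := ![![0, 1, 2, 3], ![1, 0, 3, 2], ![2, 3, 0, 1], ![3, 2, 1, 0]]

/-- the distinguished labelling -/
def RR (k : Fin 4) (t : Fin 6) (i : Fin 4) : Fin 2 :=
  if i = xr k (fa t) ∨ i = xr k (fb t) then 1 else 0

/-- moment on the image edge -/
def MT (τ : Fin 22 → Fin 22) (R : Fin 6 → Fin 4 → Fin 2) (e : Fin 24) : ℤ :=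
  MI (pth (eo (τ (src e)) (τ (dst e)))) (eta (eo (τ (src e)) (τ (dst e)))) (mm R e)

lemma prod_RR : ∀ k, ∏ e, MT (aut k) (RR k) e = -16 ^ 24 := by decide +kernel

lemma mm_eq (R : Fin 6 → Fin 4 → Fin 2) (e : Fin 24) (t : Fin 6) :
    mm R e t = (R t (lf e)).val + (R t (rt e)).val := by
  have : lf e ≠ rt e := by revert e; decide
  simp [mm, pm, this]

lemma cover (τ : Fin 22 → Fin 22) (R : Fin 6 → Fin 4 → Fin 2) (hR : R ≠ 0)
    (h : ∀ e, mm R e = 0 ∨ MT τ R e ≠ 0) :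
    ∀ e, mm R e ≠ 0 ∧ ∃ t, R t (lf e) = 1 ∧ R t (rt e) = 1 := by
  have h1 : ∀ e, mm R e ≠ 0 → ∃ t, R t (lf e) = 1 ∧ R t (rt e) = 1 := by
    intro e he
    have h2 := (h e).resolve_left he
    by_contra hc
    push Not at hc
    apply h2
    apply MI_small _ _ _ _ he
    intro t
    have := hc t
    rw [mm_eq]
    have a1 := (R t (lf e)).2
    have a2 := (R t (rt e)).2
    simp only [Fin.ext_iff, ne_eq] at this
    omega
  obtain ⟨t0, i0, h0⟩ : ∃ t i, R t i = 1 := by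
    by_contra hc
    push Not at hc
    apply hR
    ext t i
    have := hc t i
    have a1 := (R t i).2
    simp only [Fin.ext_iff, ne_eq] at this
    simp only [Pi.zero_apply, Fin.val_zero]
    omega
  have h3 : ∀ j, ∃ t, R t j = 1 := by
    intro j
    by_cases hj : j = i0
    · exact ⟨t0, hj ▸ h0⟩
    have : ∀ i j : Fin 4, j ≠ i → ∃ e, (lf e = i ∧ rt e = j) ∨ (lf e = j ∧ rt e = i) := by
      decide +kernel
    obtain ⟨e, he⟩ := this i0 j hj
    have h4 : mm R e ≠ 0 := by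
      intro h5
      have := congrFun h5 t0
      rw [mm_eq] at this
      rcases he with ⟨a, _⟩ | ⟨_, a⟩ <;> simp [a, h0] at this
    obtain ⟨t, a1, a2⟩ := h1 e h4
    rcases he with ⟨_, a⟩ | ⟨a, _⟩
    · exact ⟨t, a ▸ a2⟩
    · exact ⟨t, a ▸ a1⟩
  intro e
  have h4 : mm R e ≠ 0 := by
    intro h5
    obtain ⟨t, ht⟩ := h3 (lf e)
    have := congrFun h5 t
    rw [mm_eq] at this
    simp [ht] at this
  exact ⟨h4, h1 e h4⟩

lemma cover_aut (k : Fin 4) (R : Fin 6 → Fin 4 → Fin 2) (hR : R ≠ 0)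
    (h : ∀ e, mm R e = 0 ∨ MT (aut k) R e ≠ 0) : R = RR k := by
  have h1 := cover _ R hR h
  have h2 : ∀ t i, RR k t i = 0 → R t i = 0 := by
    intro t i hti
    have : ∀ k t i, RR k t i = 0 → ∃ e, opp (pth (eo (aut k (src e)) (aut k (dst e)))) = t ∧
        (lf e = i ∨ rt e = i) := by decide +kernel
    obtain ⟨e, he, hi⟩ := this k t i hti
    have h3 := (h e).resolve_left (h1 e).1
    have h4 : mm R e t = 0 := by
      by_contra hc
      exact h3 (MI_opp _ _ _ (he ▸ hc))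
    rw [mm_eq] at h4
    rcases hi with rfl | rfl <;> ext <;> simp <;> omega
  ext1 t
  ext1 i
  have h01 : ∀ x : Fin 2, x = 0 ∨ x = 1 := by decide
  rcases h01 (RR k t i) with h3 | h3
  · rw [h3, h2 t i h3]
  · have : ∀ k t i, RR k t i = 1 → ∃ e, (lf e = i ∨ rt e = i) ∧
        ∀ t', RR k t' (lf e) = 1 → RR k t' (rt e) = 1 → t' = t := by decide +kernel
    obtain ⟨e, hi, he⟩ := this k t i h3
    obtain ⟨t', a1, a2⟩ := (h1 e).2
    have b1 : RR k t' (lf e) = 1 := (h01 _).resolve_left fun h => by simp [h2 _ _ h] at a1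
    have b2 : RR k t' (rt e) = 1 := (h01 _).resolve_left fun h => by simp [h2 _ _ h] at a2
    have := he t' b1 b2
    subst this
    rw [h3]
    rcases hi with rfl | rfl
    · exact a1
    · exact a2

end Vale.Agent.P050
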