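import Vale.Agent.P050.Theta

namespace Vale.Agent.P050
open Module

variable {F : Type} [Field F] [Fintype F] {n : ℕ}

/-- common kernel -/
def Nall (φ : Fin 4 → Sy F n) : Submodule F (Fin n → F) := ⨅ i, ⨅ j, Kr (φ i - φ j)

omit [Fintype F] in
lemma mem_Nall (φ : Fin 4 → Sy F n) (v : Fin n → F) :
    v ∈ Nall φ ↔ ∀ i j, (φ i).1.mulVec v = (φ j).1.mulVec v := by
  simp only [Nall, Submodule.mem_iInf, mem_Kr_sub]

omit [Fintype F] in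
lemma four (φ : Fin 4 → Sy F n) (i j k l : Fin 4) (hc : ∀ m, m = i ∨ m = j ∨ m = k ∨ m = l) :
    2 * n ≤ rk (φ k - φ j) + rk (φ k - φ i) + rk (φ l - φ j) + rk (φ l - φ i) +
      2 * finrank F (Nall φ) ∧
    (rk (φ k - φ j) + rk (φ k - φ i) + rk (φ l - φ j) + rk (φ l - φ i) +
      2 * finrank F (Nall φ) ≤ 2 * n →
      2 * n = rk (φ i - φ j) + rk (φ k - φ j) + rk (φ k - φ i) +
        2 * finrank F (Kr (φ k - φ j) ⊓ Kr (φ k - φ i) : Submodule F (Fin n → F)) ∧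
      2 * n = rk (φ i - φ j) + rk (φ l - φ j) + rk (φ l - φ i) +
        2 * finrank F (Kr (φ l - φ j) ⊓ Kr (φ l - φ i) : Submodule F (Fin n → F)) ∧
      Kr (φ i - φ j) ≤ (Kr (φ k - φ j) ⊓ Kr (φ k - φ i)) ⊔ (Kr (φ l - φ j) ⊓ Kr (φ l - φ i))) := by
  have f1 := (tri_facts (φ i) (φ j) (φ k)).2.2.2.2
  have f2 := (tri_facts (φ i) (φ j) (φ l)).2.2.2.2
  have h1 : (Kr (φ k - φ j) ⊓ Kr (φ k - φ i)) ⊓ (Kr (φ l - φ j) ⊓ Kr (φ l - φ i)) = Nall φ := by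
    ext v
    simp only [Submodule.mem_inf, mem_Kr_sub, mem_Nall]
    constructor
    · rintro ⟨⟨a1, a2⟩, a3, a4⟩
      have : ∀ m, (φ m).1.mulVec v = (φ j).1.mulVec v := by
        intro m
        rcases hc m with rfl | rfl | rfl | rfl
        · rw [← a2, a1]
        · rfl
        · exact a1
        · exact a3
      intro a b
      rw [this a, this b]
    · intro h
      exact ⟨⟨h _ _, h _ _⟩, h _ _, h _ _⟩
  have h2 : (Kr (φ k - φ j) ⊓ Kr (φ k - φ i)) ⊔ (Kr (φ l - φ j) ⊓ Kr (φ l - φ i)) ≤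
      Kr (φ i - φ j) := by
    refine sup_le ?_ ?_
    · rw [← inf_Kr]; exact inf_le_right
    · rw [← inf_Kr]; exact inf_le_right
  have h3 := Submodule.finrank_sup_add_finrank_inf_eq (Kr (φ k - φ j) ⊓ Kr (φ k - φ i))
    (Kr (φ l - φ j) ⊓ Kr (φ l - φ i))
  rw [h1] at h3
  have h4 := Submodule.finrank_mono h2
  have h5 := finrank_Kr (φ i - φ j)
  refine ⟨by omega, fun h => ⟨by omega, by omega, ?_⟩⟩
  exact (Submodule.eq_of_le_of_finrank_le h2 (by omega)).ge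

lemma crude (ρ : Fin 4 → Fin 4 → ℕ) (N m : ℕ) (hm : N + m = n) :
    {φ | φ ∈ Pat F n ρ ∧ finrank F (Nall φ) = N}.ncard ≤
      2 ^ n * Nat.card (Sy F n) * Fintype.card F ^ (N * m + 3 * tri m) := by
  set q := Fintype.card F
  have h := fib {φ | φ ∈ Pat F n ρ ∧ finrank F (Nall φ) = N}
    {U : Submodule F (Fin n → F) | ⊥ ≤ U ∧ U ≤ ⊤ ∧ finrank F U = N} Nall
    (q ^ tri m * q ^ tri m * q ^ tri m * Nat.card (Sy F n)) ?_ ?_
  · refine h.trans ?_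
    have h2 := sub_count (F := F) (⊥ : Submodule F (Fin n → F)) ⊤ N 0 n (by simp) (by simp)
    have h3 : n - N = m := by omega
    simp only [finrank_fintype_fun_eq_card, Fintype.card_fin, Nat.sub_zero, h3] at h2
    refine (Nat.mul_le_mul_left _ h2).trans (le_of_eq ?_)
    ring
  · rintro φ ⟨_, h⟩
    exact ⟨bot_le, le_top, h⟩
  rintro φ0 ⟨_, h0⟩
  have hs : ∀ Q : Sy F n, {X : Sy F n | Nall φ0 ≤ Kr (X - Q) ∧ ⊥ ≤ Kr (X - Q)}.ncard ≤ q ^ tri m :=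
    fun Q => sym_count2 Q Q (Nall φ0) ⊥ m (by rw [sup_bot_eq]; omega)
  have hk : ∀ (φ : Fin 4 → Sy F n) i j, Nall φ ≤ Kr (φ i - φ j) := by
    intro φ i j v hv
    rw [mem_Kr_sub]; exact (mem_Nall _ _).1 hv i j
  refine fib3 _ (fun φ => φ 1) (fun φ => φ 0) (fun φ => φ 2) Set.univ
    (fun Q => {X : Sy F n | Nall φ0 ≤ Kr (X - Q) ∧ ⊥ ≤ Kr (X - Q)})
    (fun Q _ => {X : Sy F n | Nall φ0 ≤ Kr (X - Q) ∧ ⊥ ≤ Kr (X - Q)}) _ _ _ _
    (fun _ _ => Set.mem_univ _) ?_ ?_ (by rw [Set.ncard_univ]) (fun _ _ => hs _)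
    (fun _ _ => hs _) ?_
  · rintro φ ⟨_, h⟩
    exact ⟨h ▸ hk φ _ _, bot_le⟩
  · rintro φ ⟨_, h⟩
    exact ⟨h ▸ hk φ _ _, bot_le⟩
  · rintro φ1 _
    refine le_trans (last_inj _ _ 0 1 2 3 (by decide) φ1 ?_) (hs (φ1 1))
    rintro φ ⟨_, h⟩ b1 _ _
    exact ⟨by rw [← b1, ← h]; exact hk φ _ _, bot_le⟩

lemma fourth (P Q : Sy F n) (Q1 Q2 : Submodule F (Fin n → F)) (r0 r1 r3 : ℕ)
    (h1 : finrank F Q1 + r0 = n) (h2 : finrank F Q2 + r1 = n) :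
    {Y : Sy F n | rk (Y - P) = r0 + r3 ∧ rk (Y - Q) = r1 + r3 ∧
      finrank F (Kr (Y - Q) ⊓ Kr (Y - P) : Submodule F (Fin n → F)) + (r0 + r1 + r3) = n ∧
      Kr (Y - P) ≤ Q1 ∧ Kr (Y - Q) ≤ Q2 ∧ Q2 ≤ (Kr (Y - Q) ⊔ Kr (Y - P)) ⊔ Q1 ∧
      Q1 ≤ (Kr (Y - Q) ⊔ Kr (Y - P)) ⊔ Q2}.ncard ≤ 8 ^ n * Fintype.card F ^ e0 n r3 := by
  set q := Fintype.card F
  set S := {Y : Sy F n | rk (Y - P) = r0 + r3 ∧ rk (Y - Q) = r1 + r3 ∧
      finrank F (Kr (Y - Q) ⊓ Kr (Y - P) : Submodule F (Fin n → F)) + (r0 + r1 + r3) = n ∧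
      Kr (Y - P) ≤ Q1 ∧ Kr (Y - Q) ≤ Q2 ∧ Q2 ≤ (Kr (Y - Q) ⊔ Kr (Y - P)) ⊔ Q1 ∧
      Q1 ≤ (Kr (Y - Q) ⊔ Kr (Y - P)) ⊔ Q2} with hS
  obtain ⟨τ, hτ⟩ : ∃ τ, finrank F (Q1 ⊔ Q2 : Submodule F (Fin n → F)) + τ = n :=
    ⟨n - finrank F (Q1 ⊔ Q2 : Submodule F (Fin n → F)), by have := fr_le (Q1 ⊔ Q2); omega⟩
  have key : ∀ Y ∈ S,
      finrank F (Kr (Y - Q) ⊔ Kr (Y - P) : Submodule F (Fin n → F)) + r3 = n ∧
      Kr (Y - Q) ⊔ Kr (Y - P) ≤ Q1 ⊔ Q2 ∧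
      finrank F ((Kr (Y - Q) ⊔ Kr (Y - P)) ⊓ Q1 : Submodule F (Fin n → F)) + (r0 + r3) = n + τ ∧
      finrank F ((Kr (Y - Q) ⊔ Kr (Y - P)) ⊓ Q2 : Submodule F (Fin n → F)) + (r1 + r3) = n + τ ∧
      τ ≤ r3 ∧ r0 + r1 + r3 ≤ n := by
    rintro Y ⟨a1, a2, a3, a4, a5, a6, a7⟩
    have b1 := finrank_Kr (Y - P)
    have b2 := finrank_Kr (Y - Q)
    have b3 := Submodule.finrank_sup_add_finrank_inf_eq (Kr (Y - Q)) (Kr (Y - P))
    have b4 : Kr (Y - Q) ⊔ Kr (Y - P) ≤ Q1 ⊔ Q2 :=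
      sup_le (a5.trans le_sup_right) (a4.trans le_sup_left)
    have b5 : (Kr (Y - Q) ⊔ Kr (Y - P)) ⊔ Q1 = Q1 ⊔ Q2 :=
      le_antisymm (sup_le b4 le_sup_left) (sup_le le_sup_right a6)
    have b6 : (Kr (Y - Q) ⊔ Kr (Y - P)) ⊔ Q2 = Q1 ⊔ Q2 :=
      le_antisymm (sup_le b4 le_sup_right) (sup_le a7 le_sup_right)
    have b7 := Submodule.finrank_sup_add_finrank_inf_eq (Kr (Y - Q) ⊔ Kr (Y - P)) Q1
    have b8 := Submodule.finrank_sup_add_finrank_inf_eq (Kr (Y - Q) ⊔ Kr (Y - P)) Q2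
    rw [b5] at b7
    rw [b6] at b8
    have b9 := Submodule.finrank_mono b4
    refine ⟨by omega, b4, by omega, by omega, by omega, by omega⟩
  by_cases hne : S.Nonempty
  swap
  · rw [Set.not_nonempty_iff_eq_empty.1 hne]; simp
  obtain ⟨Y0, hY0⟩ := hne
  obtain ⟨-, -, -, -, hτ3, hr⟩ := key Y0 hY0
  have h := fib3 S (fun Y => Kr (Y - Q) ⊔ Kr (Y - P)) (fun Y => Kr (Y - P)) (fun Y => Kr (Y - Q))
    {U | ⊥ ≤ U ∧ U ≤ Q1 ⊔ Q2 ∧ finrank F U = n - r3}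
    (fun Q3 => {U | ⊥ ≤ U ∧ U ≤ Q3 ⊓ Q1 ∧ finrank F U = n - r0 - r3})
    (fun Q3 K1 => {U | K1 ⊓ Kr (P - Q) ≤ U ∧ U ≤ Q3 ⊓ Q2 ∧ finrank F U = n - r1 - r3})
    (2 ^ n * q ^ ((n - r3) * (r3 - τ))) (2 ^ n * q ^ ((n - r0 - r3) * τ))
    (2 ^ n * q ^ (r0 * τ)) (q ^ tri r3) ?_ ?_ ?_ ?_ ?_ ?_ ?_
  · refine h.trans (le_of_eq ?_)
    have : e0 n r3 = tri r3 + r0 * τ + (n - r0 - r3) * τ + (n - r3) * (r3 - τ) := by
      unfold e0
      obtain ⟨u, rfl⟩ := Nat.exists_eq_add_of_le hτ3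
      obtain ⟨w, hw⟩ : ∃ w, n = r0 + (τ + u) + w := ⟨n - (r0 + (τ + u)), by omega⟩
      have e1 : n - (τ + u) = r0 + w := by omega
      have e2 : n - r0 - (τ + u) = w := by omega
      have e3 : τ + u - τ = u := by omega
      rw [e1, e2, e3]; ring
    rw [this, show (8 : ℕ) = 2 * 2 * 2 by norm_num, mul_pow, mul_pow]
    ring
  · intro Y hY
    have := key Y hY
    exact ⟨bot_le, this.2.1, by omega⟩
  · intro Y hY
    have b1 := finrank_Kr (Y - P)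
    have := hY.1
    exact ⟨bot_le, le_inf le_sup_right hY.2.2.2.1, by omega⟩
  · intro Y hY
    have b1 := finrank_Kr (Y - Q)
    have := hY.2.1
    refine ⟨?_, le_inf le_sup_left hY.2.2.2.2.1, by omega⟩
    rw [inf_Kr']; exact inf_le_left
  · have := sub_count (F := F) (⊥ : Submodule F (Fin n → F)) (Q1 ⊔ Q2) (n - r3) 0 (n - τ)
      (by simp) (by omega)
    have h4 : n - τ - (n - r3) = r3 - τ := by omega
    simpa [h4] using this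
  · intro Y hY
    have := key Y hY
    have h5 := sub_count (F := F) (⊥ : Submodule F (Fin n → F)) ((Kr (Y - Q) ⊔ Kr (Y - P)) ⊓ Q1)
      (n - r0 - r3) 0 (n - r0 - r3 + τ) (by simp) (by omega)
    simpa using h5
  · intro Y hY
    have := key Y hY
    have a3 := hY.2.2.1
    have h5 := sub_count (F := F) (Kr (Y - P) ⊓ Kr (P - Q)) ((Kr (Y - Q) ⊔ Kr (Y - P)) ⊓ Q2)
      (n - r1 - r3) (n - (r0 + r1 + r3)) (n - r1 - r3 + τ) (by rw [inf_Kr']; omega) (by omega)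
    have h4 : n - r1 - r3 - (n - (r0 + r1 + r3)) = r0 := by omega
    simpa [h4] using h5
  · intro Y hY
    have := key Y hY
    refine le_trans (Set.ncard_le_ncard ?_) (sym_count2 Q P (Kr (Y - Q)) (Kr (Y - P)) r3 this.1)
    rintro X ⟨_, _, hb, hc⟩
    exact ⟨le_of_eq hc.symm, le_of_eq hb.symm⟩

lemma eqreg (ρ : Fin 4 → Fin 4 → ℕ) (N r0 r1 r2 r3 : ℕ) (hN : N + (r0 + r1 + r2 + r3) = n)
    (h01 : ρ 0 1 = r0 + r1) (h02 : ρ 0 2 = r0 + r2) (h03 : ρ 0 3 = r0 + r3)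
    (h12 : ρ 1 2 = r1 + r2) (h13 : ρ 1 3 = r1 + r3) (h23 : ρ 2 3 = r2 + r3) :
    {φ | φ ∈ Pat F n ρ ∧ finrank F (Nall φ) = N}.ncard ≤
      128 ^ n * Nat.card (Sy F n) * Fintype.card F ^
        (e0 n (r0 + r1) + cN n (r0 + r1) (r1 + r2) (r0 + r2) (N + r3) + e0 n r3) := by
  set q := Fintype.card F
  have key : ∀ φ ∈ {φ | φ ∈ Pat F n ρ ∧ finrank F (Nall φ) = N},
      rk (φ 0 - φ 1) = r0 + r1 ∧ rk (φ 2 - φ 1) = r1 + r2 ∧ rk (φ 2 - φ 0) = r0 + r2 ∧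
      finrank F (Kr (φ 2 - φ 1) ⊓ Kr (φ 2 - φ 0) : Submodule F (Fin n → F)) = N + r3 ∧
      finrank F (Kr (φ 1 - φ 0) ⊔ Kr (φ 2 - φ 0) : Submodule F (Fin n → F)) + r0 = n ∧
      finrank F (Kr (φ 0 - φ 1) ⊔ Kr (φ 2 - φ 1) : Submodule F (Fin n → F)) + r1 = n ∧
      rk (φ 3 - φ 0) = r0 + r3 ∧ rk (φ 3 - φ 1) = r1 + r3 ∧
      finrank F (Kr (φ 3 - φ 1) ⊓ Kr (φ 3 - φ 0) : Submodule F (Fin n → F)) + (r0 + r1 + r3) = n ∧
      Kr (φ 3 - φ 0) ≤ Kr (φ 1 - φ 0) ⊔ Kr (φ 2 - φ 0) ∧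
      Kr (φ 3 - φ 1) ≤ Kr (φ 0 - φ 1) ⊔ Kr (φ 2 - φ 1) ∧
      Kr (φ 0 - φ 1) ⊔ Kr (φ 2 - φ 1) ≤
        (Kr (φ 3 - φ 1) ⊔ Kr (φ 3 - φ 0)) ⊔ (Kr (φ 1 - φ 0) ⊔ Kr (φ 2 - φ 0)) ∧
      Kr (φ 1 - φ 0) ⊔ Kr (φ 2 - φ 0) ≤
        (Kr (φ 3 - φ 1) ⊔ Kr (φ 3 - φ 0)) ⊔ (Kr (φ 0 - φ 1) ⊔ Kr (φ 2 - φ 1)) := by
    rintro φ ⟨hp, hn⟩
    have b01 : rk (φ 0 - φ 1) = r0 + r1 := (hp 0 1).trans h01
    have b02 : rk (φ 0 - φ 2) = r0 + r2 := (hp 0 2).trans h02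
    have b03 : rk (φ 0 - φ 3) = r0 + r3 := (hp 0 3).trans h03
    have b12 : rk (φ 1 - φ 2) = r1 + r2 := (hp 1 2).trans h12
    have b13 : rk (φ 1 - φ 3) = r1 + r3 := (hp 1 3).trans h13
    have b23 : rk (φ 2 - φ 3) = r2 + r3 := (hp 2 3).trans h23
    have b10 : rk (φ 1 - φ 0) = r0 + r1 := (rk_sub_comm _ _).trans b01
    have b20 : rk (φ 2 - φ 0) = r0 + r2 := (rk_sub_comm _ _).trans b02
    have b30 : rk (φ 3 - φ 0) = r0 + r3 := (rk_sub_comm _ _).trans b03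
    have b21 : rk (φ 2 - φ 1) = r1 + r2 := (rk_sub_comm _ _).trans b12
    have b31 : rk (φ 3 - φ 1) = r1 + r3 := (rk_sub_comm _ _).trans b13
    have b32 : rk (φ 3 - φ 2) = r2 + r3 := (rk_sub_comm _ _).trans b23
    obtain ⟨d1, d2, -⟩ := (four φ 0 1 2 3 (by decide)).2
      (by rw [b21, b20, b31, b30, hn]; clear * - hN; omega)
    obtain ⟨-, -, d30⟩ := (four φ 3 0 1 2 (by decide)).2
      (by rw [b10, b13, b20, b23, hn]; clear * - hN; omega)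
    obtain ⟨-, -, d31⟩ := (four φ 3 1 0 2 (by decide)).2
      (by rw [b01, b03, b21, b23, hn]; clear * - hN; omega)
    obtain ⟨-, -, d21⟩ := (four φ 2 1 0 3 (by decide)).2
      (by rw [b01, b02, b31, b32, hn]; clear * - hN; omega)
    obtain ⟨-, -, d20⟩ := (four φ 2 0 1 3 (by decide)).2
      (by rw [b10, b12, b30, b32, hn]; clear * - hN; omega)
    have k01 := finrank_Kr (φ 0 - φ 1)
    have k10 := finrank_Kr (φ 1 - φ 0)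
    have k20 := finrank_Kr (φ 2 - φ 0)
    have k21 := finrank_Kr (φ 2 - φ 1)
    rw [b01] at k01
    rw [b10] at k10
    rw [b20] at k20
    rw [b21] at k21
    rw [b01, b21, b20] at d1
    rw [b01, b31, b30] at d2
    have u1 := Submodule.finrank_sup_add_finrank_inf_eq (Kr (φ 2 - φ 0)) (Kr (φ 1 - φ 0))
    rw [inf_Kr, inf_comm, sup_comm] at u1
    have u2 := Submodule.finrank_sup_add_finrank_inf_eq (Kr (φ 2 - φ 1)) (Kr (φ 0 - φ 1))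
    rw [inf_Kr, sup_comm] at u2
    refine ⟨b01, b21, b20, by clear * - hN d1; omega, ?_, ?_, b30, b31,
      by clear * - hN d2; omega, d30.trans (sup_le_sup inf_le_left inf_le_left),
      d31.trans (sup_le_sup inf_le_left inf_le_left), sup_le ?_ (d21.trans (sup_le ?_ ?_)),
      sup_le ?_ (d20.trans (sup_le ?_ ?_))⟩
    · clear * - k10 k20 d1 u1 hN
      generalize finrank F (Kr (φ 1 - φ 0)) = x1 at *
      generalize finrank F (Kr (φ 2 - φ 0)) = x2 at *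
      generalize finrank F (Kr (φ 1 - φ 0) ⊔ Kr (φ 2 - φ 0) : Submodule F (Fin n → F)) = x3 at *
      generalize finrank F (Kr (φ 2 - φ 1) ⊓ Kr (φ 2 - φ 0) : Submodule F (Fin n → F)) = x4 at *
      omega
    · clear * - k01 k21 d1 u2 hN
      generalize finrank F (Kr (φ 0 - φ 1)) = x1 at *
      generalize finrank F (Kr (φ 2 - φ 1)) = x2 at *
      generalize finrank F (Kr (φ 0 - φ 1) ⊔ Kr (φ 2 - φ 1) : Submodule F (Fin n → F)) = x3 at *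
      generalize finrank F (Kr (φ 2 - φ 1) ⊓ Kr (φ 2 - φ 0) : Submodule F (Fin n → F)) = x4 at *
      omega
    · rw [Kr_sub_comm (φ 0)]; exact le_sup_of_le_right le_sup_left
    · rw [Kr_sub_comm (φ 0)]; exact inf_le_left.trans (le_sup_of_le_right le_sup_left)
    · exact inf_le_left.trans (le_sup_of_le_left le_sup_left)
    · rw [Kr_sub_comm (φ 1)]; exact le_sup_of_le_right le_sup_left
    · rw [Kr_sub_comm (φ 1)]; exact inf_le_left.trans (le_sup_of_le_right le_sup_left)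
    · exact inf_le_left.trans (le_sup_of_le_left le_sup_right)
  have h := fib3 {φ | φ ∈ Pat F n ρ ∧ finrank F (Nall φ) = N}
    (fun φ => φ 1) (fun φ => φ 0) (fun φ => φ 2) Set.univ
    (fun Q => {P | rk (P - Q) = r0 + r1})
    (fun Q P => {X : Sy F n | rk (X - Q) = r1 + r2 ∧ rk (X - P) = r0 + r2 ∧
      finrank F (Kr (X - Q) ⊓ Kr (X - P) : Submodule F (Fin n → F)) = N + r3})
    (Nat.card (Sy F n)) (2 ^ n * q ^ e0 n (r0 + r1))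
    (8 ^ n * q ^ cN n (r0 + r1) (r1 + r2) (r0 + r2) (N + r3)) (8 ^ n * q ^ e0 n r3)
    (fun _ _ => Set.mem_univ _) ?_ ?_ (by rw [Set.ncard_univ]) ?_ ?_ ?_
  · refine h.trans (le_of_eq ?_)
    rw [show (128 : ℕ) = 8 * 8 * 2 by norm_num, mul_pow, mul_pow]
    ring
  · intro φ hφ
    exact (key φ hφ).1
  · intro φ hφ
    have := key φ hφ
    exact ⟨this.2.1, this.2.2.1, this.2.2.2.1⟩
  · rintro φ _
    exact rank_count _ _
  · intro φ hφ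
    have := cond_count (φ 0) (φ 1) (r1 + r2) (r0 + r2) (N + r3)
    rwa [(key φ hφ).1] at this
  · intro φ1 hφ1
    have k1 := key φ1 hφ1
    refine le_trans (last_inj _ _ 0 1 2 3 (by decide) φ1 ?_)
      (fourth (φ1 0) (φ1 1) _ _ r0 r1 r3 k1.2.2.2.2.1 k1.2.2.2.2.2.1)
    intro φ hφ b1 b0 b2
    rw [← b1, ← b0, ← b2]
    exact (key φ hφ).2.2.2.2.2.2

lemma eq_exp (n N r0 r1 r2 r3 : ℕ) (hN : N + (r0 + r1 + r2 + r3) = n) :
    2 * (e0 n (r0 + r1) + cN n (r0 + r1) (r1 + r2) (r0 + r2) (N + r3) + e0 n r3) +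
      (r0 * r0 + r1 * r1 + r2 * r2 + r3 * r3) =
      2 * n * (r0 + r1 + r2 + r3) + (r0 + r1 + r2 + r3) := by
  subst hN
  unfold cN e0
  have e1 : N + (r0 + r1 + r2 + r3) - (r0 + r1) = N + r2 + r3 := by omega
  have e2 : N + r2 + r3 - (N + r3) = r2 := by omega
  have e3 : N + (r0 + r1 + r2 + r3) - (r1 + r2) - (N + r3) = r0 := by omega
  have e4 : N + (r0 + r1 + r2 + r3) - (r0 + r2) - (N + r3) = r1 := by omega
  have e5 : r1 + r2 + (r0 + r2) + (N + r3) - (N + (r0 + r1 + r2 + r3)) = r2 := by omega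
  have e6 : N + (r0 + r1 + r2 + r3) - r3 = N + r0 + r1 + r2 := by omega
  rw [e1, e2, e3, e4, e5, e6]
  have t1 := two_tri (r0 + r1)
  have t2 := two_tri r2
  have t3 := two_tri r3
  nlinarith [t1, t2, t3]

end Vale.Agent.P050
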