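import Vale.Agent.P050.Count

namespace Vale.Agent.P050
open Module

lemma fib3 {α β1 β2 β3 : Type*} [Finite α] [Finite β1] [Finite β2] [Finite β3] (S : Set α)
    (f1 : α → β1) (f2 : α → β2) (f3 : α → β3) (T1 : Set β1) (T2 : β1 → Set β2)
    (T3 : β1 → β2 → Set β3) (B1 B2 B3 B4 : ℕ)
    (h1 : ∀ x ∈ S, f1 x ∈ T1) (h2 : ∀ x ∈ S, f2 x ∈ T2 (f1 x))
    (h3 : ∀ x ∈ S, f3 x ∈ T3 (f1 x) (f2 x))
    (b1 : T1.ncard ≤ B1) (b2 : ∀ x ∈ S, (T2 (f1 x)).ncard ≤ B2)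
    (b3 : ∀ x ∈ S, (T3 (f1 x) (f2 x)).ncard ≤ B3)
    (b4 : ∀ x0 ∈ S, {x | x ∈ S ∧ f1 x = f1 x0 ∧ f2 x = f2 x0 ∧ f3 x = f3 x0}.ncard ≤ B4) :
    S.ncard ≤ B4 * B3 * B2 * B1 := by
  refine (fib S T1 f1 (B4 * B3 * B2) h1 ?_).trans (Nat.mul_le_mul_left _ b1)
  intro x0 hx0
  refine (fib _ (T2 (f1 x0)) f2 (B4 * B3) ?_ ?_).trans (Nat.mul_le_mul_left _ (b2 x0 hx0))
  · rintro x ⟨hx, hx1⟩
    rw [← hx1]; exact h2 x hx
  rintro x1 ⟨hx1, hx10⟩
  refine (fib _ (T3 (f1 x1) (f2 x1)) f3 B4 ?_ ?_).trans (Nat.mul_le_mul_left _ (b3 x1 hx1))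
  · rintro x ⟨⟨hx, hxa⟩, hxb⟩
    rw [← hxb, hx10, ← hxa]; exact h3 x hx
  rintro x2 ⟨⟨hx2, hx2a⟩, hx2b⟩
  refine le_trans (Set.ncard_le_ncard ?_) (b4 x2 hx2)
  rintro x ⟨⟨⟨hx, hxa⟩, hxb⟩, hxc⟩
  exact ⟨hx, hxa.trans hx2a.symm, hxb.trans hx2b.symm, hxc⟩

variable {F : Type} [Field F] [Fintype F] {n : ℕ}

/-- orthogonal space for the form of `A` -/
def Orth (A : Sy F n) (U : Submodule F (Fin n → F)) : Submodule F (Fin n → F) :=
  (Matrix.toBilin' A.1).orthogonal U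

omit [Fintype F] in
lemma mem_Orth (A : Sy F n) (U : Submodule F (Fin n → F)) (v : Fin n → F) :
    v ∈ Orth A U ↔ ∀ u ∈ U, u ⬝ᵥ A.1.mulVec v = 0 := by
  simp only [Orth, LinearMap.BilinForm.mem_orthogonal_iff, LinearMap.BilinForm.IsOrtho,
    Matrix.toBilin'_apply']

omit [Fintype F] in
lemma finrank_Orth (A : Sy F n) (U : Submodule F (Fin n → F)) :
    finrank F U + finrank F (Orth A U) =
      n + finrank F (U ⊓ Kr A : Submodule F (Fin n → F)) := by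
  have h := LinearMap.BilinForm.finrank_add_finrank_orthogonal' (B := Matrix.toBilin' A.1) U
  have hk : LinearMap.ker (Matrix.toBilin' A.1) = Kr A := by
    ext v
    rw [LinearMap.mem_ker, mem_Kr]
    constructor
    · intro hv
      ext j
      have := LinearMap.congr_fun hv (Pi.single j 1)
      rw [Matrix.toBilin'_apply', sy_comm] at this
      simpa using this
    · intro hv
      ext j
      simp only [LinearMap.coe_comp, Function.comp_apply, LinearMap.zero_comp,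
        LinearMap.zero_apply]
      rw [Matrix.toBilin'_apply', sy_comm, hv, dotProduct_zero]
  simp only [finrank_fintype_fun_eq_card, Fintype.card_fin] at h
  rw [← hk]
  exact h

omit [Fintype F] in
lemma inf_Kr (P Q X : Sy F n) : Kr (X - Q) ⊓ Kr (P - Q) = Kr (X - Q) ⊓ Kr (X - P) := by
  ext v
  simp only [Submodule.mem_inf, mem_Kr_sub]
  constructor
  · rintro ⟨h1, h2⟩; exact ⟨h1, h1.trans h2.symm⟩
  · rintro ⟨h1, h2⟩; exact ⟨h1, h2.symm.trans h1⟩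

omit [Fintype F] in
lemma inf_Kr' (P Q X : Sy F n) : Kr (X - P) ⊓ Kr (P - Q) = Kr (X - Q) ⊓ Kr (X - P) := by
  ext v
  simp only [Submodule.mem_inf, mem_Kr_sub]
  constructor
  · rintro ⟨h1, h2⟩; exact ⟨h1.trans h2, h1⟩
  · rintro ⟨h1, h2⟩; exact ⟨h2, h2.symm.trans h1⟩

omit [Fintype F] in
lemma Kr_le_Orth (P Q X : Sy F n) : Kr (X - P) ≤ Orth (P - Q) (Kr (X - Q)) := by
  intro v hv
  rw [mem_Orth]
  intro u hu
  rw [mem_Kr_sub] at hu hv
  rw [AddSubgroup.coe_sub, Matrix.sub_mulVec, dotProduct_sub, ← hv, sy_comm X, sy_comm Q, hu,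
    sub_self]

omit [Fintype F] in
lemma fr_le (U : Submodule F (Fin n → F)) : finrank F U ≤ n := by
  have := Submodule.finrank_le U
  simpa using this

omit [Fintype F] in
lemma tri_facts (P Q X : Sy F n) :
    finrank F (Kr (X - Q) ⊓ Kr (X - P) : Submodule F (Fin n → F)) + rk (P - Q) ≤ n ∧
    finrank F (Kr (X - Q) ⊓ Kr (X - P) : Submodule F (Fin n → F)) + rk (X - Q) ≤ n ∧
    finrank F (Kr (X - Q) ⊓ Kr (X - P) : Submodule F (Fin n → F)) + rk (X - P) ≤ n ∧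
    n ≤ rk (X - Q) + rk (X - P) +
      finrank F (Kr (X - Q) ⊓ Kr (X - P) : Submodule F (Fin n → F)) ∧
    2 * n ≤ rk (P - Q) + rk (X - Q) + rk (X - P) +
      2 * finrank F (Kr (X - Q) ⊓ Kr (X - P) : Submodule F (Fin n → F)) := by
  have a1 := finrank_Kr (P - Q)
  have a2 := finrank_Kr (X - Q)
  have a3 := finrank_Kr (X - P)
  have b1 : finrank F (Kr (X - Q) ⊓ Kr (X - P) : Submodule F (Fin n → F)) ≤
      finrank F (Kr (P - Q)) := Submodule.finrank_mono (by rw [← inf_Kr]; exact inf_le_right)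
  have b2 : finrank F (Kr (X - Q) ⊓ Kr (X - P) : Submodule F (Fin n → F)) ≤
      finrank F (Kr (X - Q)) := Submodule.finrank_mono inf_le_left
  have b3 : finrank F (Kr (X - Q) ⊓ Kr (X - P) : Submodule F (Fin n → F)) ≤
      finrank F (Kr (X - P)) := Submodule.finrank_mono inf_le_right
  have c1 := Submodule.finrank_sup_add_finrank_inf_eq (Kr (X - Q)) (Kr (X - P))
  have c2 := fr_le (Kr (X - Q) ⊔ Kr (X - P))
  have d1 := finrank_Orth (P - Q) (Kr (X - Q))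
  rw [inf_Kr] at d1
  have d2 := Submodule.finrank_sup_add_finrank_inf_eq (Kr (X - P)) (Kr (P - Q))
  rw [inf_Kr'] at d2
  have d3 : finrank F (Kr (X - P) ⊔ Kr (P - Q) : Submodule F (Fin n → F)) ≤
      finrank F (Orth (P - Q) (Kr (X - Q))) := by
    apply Submodule.finrank_mono
    refine sup_le (Kr_le_Orth P Q X) ?_
    intro v hv
    rw [mem_Orth]
    intro u _
    rw [(mem_Kr _ _).1 hv, dotProduct_zero]
  omega

/-- exponent for the number of matrices of rank `a` -/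
def e0 (n a : ℕ) : ℕ := (n - a) * a + tri a

lemma rank_count (Q : Sy F n) (a : ℕ) :
    {P : Sy F n | rk (P - Q) = a}.ncard ≤ 2 ^ n * Fintype.card F ^ e0 n a := by
  have h := fib {P : Sy F n | rk (P - Q) = a}
    {U : Submodule F (Fin n → F) | ⊥ ≤ U ∧ U ≤ ⊤ ∧ finrank F U = n - a}
    (fun P => Kr (P - Q)) (Fintype.card F ^ tri a) ?_ ?_
  · refine h.trans ?_
    by_cases ha : a ≤ n
    · have h2 := sub_count (F := F) (⊥ : Submodule F (Fin n → F)) ⊤ (n - a) 0 n (by simp) (by simp)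
      have h3 : n - (n - a) = a := by omega
      simp only [finrank_fintype_fun_eq_card, Fintype.card_fin, Nat.sub_zero, h3] at h2
      refine (Nat.mul_le_mul_left _ h2).trans (le_of_eq ?_)
      unfold e0; ring
    · have h2 := sub_count (F := F) (⊥ : Submodule F (Fin n → F)) ⊤ (n - a) 0 n (by simp) (by simp)
      have h3 : n - a = 0 := by omega
      simp only [finrank_fintype_fun_eq_card, Fintype.card_fin, Nat.sub_zero, h3] at h2
      rw [h3]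
      refine (Nat.mul_le_mul_left _ h2).trans (le_of_eq ?_)
      unfold e0; rw [h3]; ring
  · intro P hP
    refine ⟨bot_le, le_top, ?_⟩
    have := finrank_Kr (P - Q)
    have h2 : rk (P - Q) = a := hP
    omega
  · intro P0 hP0
    have h1 := finrank_Kr (P0 - Q)
    have h2 : rk (P0 - Q) = a := hP0
    refine le_trans (Set.ncard_le_ncard ?_) (sym_count2 Q Q (Kr (P0 - Q)) ⊥ a (by
      rw [sup_bot_eq]; omega))
    rintro P ⟨_, hP⟩
    exact ⟨le_of_eq hP.symm, bot_le⟩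

/-- exponent for the third point -/
def cN (n a x y d : ℕ) : ℕ :=
  d * (n - a - d) + (n - x - d) * x + (n - y - d) * (x + y + d - n) + tri (x + y + d - n)

lemma cond_count (P Q : Sy F n) (x y d : ℕ) :
    {X : Sy F n | rk (X - Q) = x ∧ rk (X - P) = y ∧
      finrank F (Kr (X - Q) ⊓ Kr (X - P) : Submodule F (Fin n → F)) = d}.ncard ≤
      8 ^ n * Fintype.card F ^ cN n (rk (P - Q)) x y d := by
  set q := Fintype.card F
  have h := fib3 {X : Sy F n | rk (X - Q) = x ∧ rk (X - P) = y ∧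
      finrank F (Kr (X - Q) ⊓ Kr (X - P) : Submodule F (Fin n → F)) = d}
    (fun X => Kr (X - Q) ⊓ Kr (X - P)) (fun X => Kr (X - Q)) (fun X => Kr (X - P))
    {U | ⊥ ≤ U ∧ U ≤ Kr (P - Q) ∧ finrank F U = d}
    (fun K => {U | K ≤ U ∧ U ≤ ⊤ ∧ finrank F U = n - x})
    (fun K K1 => {U | K ≤ U ∧ U ≤ Orth (P - Q) K1 ∧ finrank F U = n - y})
    (2 ^ n * q ^ (d * (n - rk (P - Q) - d))) (2 ^ n * q ^ ((n - x - d) * x))
    (2 ^ n * q ^ ((n - y - d) * (x + y + d - n))) (q ^ tri (x + y + d - n))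
    ?_ ?_ ?_ ?_ ?_ ?_ ?_
  · refine h.trans (le_of_eq ?_)
    unfold cN
    rw [show (8 : ℕ) = 2 * 2 * 2 by norm_num, mul_pow, mul_pow]
    ring
  · rintro X ⟨_, _, h3⟩
    exact ⟨bot_le, by rw [← inf_Kr]; exact inf_le_right, h3⟩
  · rintro X ⟨h1, _, _⟩
    refine ⟨inf_le_left, le_top, ?_⟩
    have := finrank_Kr (X - Q)
    omega
  · rintro X ⟨_, h2, _⟩
    refine ⟨inf_le_right, Kr_le_Orth P Q X, ?_⟩
    have := finrank_Kr (X - P)
    omega
  · have := sub_count (F := F) (⊥ : Submodule F (Fin n → F)) (Kr (P - Q)) d 0 (n - rk (P - Q))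
      (by simp) (by have := finrank_Kr (P - Q); omega)
    simpa using this
  · rintro X ⟨h1, h2, h3⟩
    have := sub_count (F := F) (Kr (X - Q) ⊓ Kr (X - P)) ⊤ (n - x) d n h3 (by simp)
    have h4 : n - (n - x) = x := by have := finrank_Kr (X - Q); omega
    simpa [h4] using this
  · rintro X ⟨h1, h2, h3⟩
    have a2 := finrank_Kr (X - Q)
    have a3 := finrank_Kr (X - P)
    have d1 := finrank_Orth (P - Q) (Kr (X - Q))
    rw [inf_Kr] at d1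
    have := sub_count (F := F) (Kr (X - Q) ⊓ Kr (X - P)) (Orth (P - Q) (Kr (X - Q))) (n - y) d
      (x + d) h3 (by omega)
    have h4 : x + d - (n - y) = x + y + d - n := by omega
    simpa [h4] using this
  · rintro X0 ⟨h1, h2, h3⟩
    have a2 := finrank_Kr (X0 - Q)
    have a3 := finrank_Kr (X0 - P)
    have c1 := Submodule.finrank_sup_add_finrank_inf_eq (Kr (X0 - Q)) (Kr (X0 - P))
    have c2 := fr_le (Kr (X0 - Q) ⊔ Kr (X0 - P))
    refine le_trans (Set.ncard_le_ncard ?_) (sym_count2 Q P (Kr (X0 - Q)) (Kr (X0 - P))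
      (x + y + d - n) (by omega))
    rintro X ⟨_, _, hb, hc⟩
    exact ⟨le_of_eq hb.symm, le_of_eq hc.symm⟩

/-- the quadratic defect -/
def gq (a x y : ℤ) : ℤ := -(x + y - a) ^ 2 - 2 * (x - y) ^ 2 + 2 * (x + y) + 1

lemma cN_le (n a x y d : ℕ) (h1 : d + a ≤ n) (h2 : d + x ≤ n) (h3 : d + y ≤ n)
    (h4 : n ≤ x + y + d) (h5 : 2 * n ≤ a + x + y + 2 * d) :
    8 * (cN n a x y d : ℤ) + 4 * e0 n a ≤ 4 * n * (x + y) + gq a x y := by
  unfold cN e0 gq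
  have t1 := two_tri (x + y + d - n)
  have t2 := two_tri a
  obtain ⟨i, hi⟩ : ∃ i, x + y + d = n + i := ⟨x + y + d - n, by omega⟩
  have e1 : x + y + d - n = i := by omega
  rw [e1] at t1 ⊢
  have t1' : 2 * (tri i : ℤ) = i * (i + 1) := by exact_mod_cast t1
  have t2' : 2 * (tri a : ℤ) = a * (a + 1) := by exact_mod_cast t2
  have hi' : (x : ℤ) + y + d = n + i := by exact_mod_cast hi
  have c1 : ((n - a - d : ℕ) : ℤ) = n - a - d := by omega
  have c2 : ((n - x - d : ℕ) : ℤ) = n - x - d := by omega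
  have c3 : ((n - y - d : ℕ) : ℤ) = n - y - d := by omega
  have c4 : ((n - a : ℕ) : ℤ) = n - a := by omega
  push_cast
  rw [c1, c2, c3, c4]
  have ht : (0 : ℤ) ≤ a + x + y + 2 * d - 2 * n := by omega
  have hd : (0 : ℤ) ≤ d := by omega
  have hn : (n : ℤ) = x + y + d - i := by omega
  rw [hn] at ht ⊢
  nlinarith [mul_nonneg ht hd, sq_nonneg ((a : ℤ) + x + y + 2 * d - 2 * (x + y + d - i) - 1)]

/-- configurations with a given rank pattern -/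
def Pat (F : Type) [Field F] (n : ℕ) (ρ : Fin 4 → Fin 4 → ℕ) : Set (Fin 4 → Sy F n) :=
  {φ | ∀ i j, rk (φ i - φ j) = ρ i j}

/-- dimension as an element of `Fin (n+1)` -/
noncomputable def dimF (U : Submodule F (Fin n → F)) : Fin (n + 1) :=
  ⟨finrank F U, Nat.lt_succ_of_le (fr_le U)⟩

lemma last_inj (S : Set (Fin 4 → Sy F n)) (T : Set (Sy F n)) (i j k l : Fin 4)
    (hc : ∀ m, m = i ∨ m = j ∨ m = k ∨ m = l) (φ0 : Fin 4 → Sy F n)
    (h : ∀ φ ∈ S, φ j = φ0 j → φ i = φ0 i → φ k = φ0 k → φ l ∈ T) :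
    {φ | φ ∈ S ∧ φ j = φ0 j ∧ φ i = φ0 i ∧ φ k = φ0 k}.ncard ≤ T.ncard := by
  apply Set.ncard_le_ncard_of_injOn (fun φ => φ l)
  · rintro φ ⟨h0, h1, h2, h3⟩
    exact h φ h0 h1 h2 h3
  · rintro φ ⟨_, h1, h2, h3⟩ φ' ⟨_, h1', h2', h3'⟩ hl
    ext1 m
    rcases hc m with rfl | rfl | rfl | rfl
    · rw [h2, h2']
    · rw [h1, h1']
    · rw [h3, h3']
    · exact hl

lemma theta (ρ : Fin 4 → Fin 4 → ℕ) (i j k l : Fin 4)
    (hc : ∀ m, m = i ∨ m = j ∨ m = k ∨ m = l) (T : ℕ)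
    (hT : 4 * (n : ℤ) * (ρ k j + ρ k i) + gq (ρ i j) (ρ k j) (ρ k i) +
      (4 * (n : ℤ) * (ρ l j + ρ l i) + gq (ρ i j) (ρ l j) (ρ l i)) < 8 * (T + 1)) :
    (Pat F n ρ).ncard ≤
      (128 ^ n * Nat.card (Sy F n) * Fintype.card F ^ T) * (n + 1) ^ 2 := by
  set q := Fintype.card F
  have hq : 2 ≤ q := two_le_q
  have h := fib (Pat F n ρ) (Set.univ : Set (Fin (n + 1) × Fin (n + 1)))
    (fun φ => (dimF (Kr (φ k - φ j) ⊓ Kr (φ k - φ i)), dimF (Kr (φ l - φ j) ⊓ Kr (φ l - φ i))))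
    (128 ^ n * Nat.card (Sy F n) * q ^ T) (fun _ _ => Set.mem_univ _) ?_
  · refine h.trans (le_of_eq ?_)
    rw [Set.ncard_univ]
    simp [sq]
  intro φ0 hφ0
  set d := finrank F (Kr (φ0 k - φ0 j) ⊓ Kr (φ0 k - φ0 i) : Submodule F (Fin n → F)) with hd
  set d' := finrank F (Kr (φ0 l - φ0 j) ⊓ Kr (φ0 l - φ0 i) : Submodule F (Fin n → F)) with hd'
  have f1 := tri_facts (φ0 i) (φ0 j) (φ0 k)
  have f2 := tri_facts (φ0 i) (φ0 j) (φ0 l)
  rw [← hd, hφ0, hφ0, hφ0] at f1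
  rw [← hd', hφ0, hφ0, hφ0] at f2
  have g1 := cN_le n _ _ _ _ f1.1 f1.2.1 f1.2.2.1 f1.2.2.2.1 f1.2.2.2.2
  have g2 := cN_le n _ _ _ _ f2.1 f2.2.1 f2.2.2.1 f2.2.2.2.1 f2.2.2.2.2
  have hE : e0 n (ρ i j) + cN n (ρ i j) (ρ k j) (ρ k i) d + cN n (ρ i j) (ρ l j) (ρ l i) d' ≤ T := by
    omega
  have h := fib3 {φ | φ ∈ Pat F n ρ ∧
      (dimF (Kr (φ k - φ j) ⊓ Kr (φ k - φ i)), dimF (Kr (φ l - φ j) ⊓ Kr (φ l - φ i))) =
      (dimF (Kr (φ0 k - φ0 j) ⊓ Kr (φ0 k - φ0 i)), dimF (Kr (φ0 l - φ0 j) ⊓ Kr (φ0 l - φ0 i)))}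
    (fun φ => φ j) (fun φ => φ i) (fun φ => φ k) Set.univ
    (fun Q => {P | rk (P - Q) = ρ i j})
    (fun Q P => {X : Sy F n | rk (X - Q) = ρ k j ∧ rk (X - P) = ρ k i ∧
      finrank F (Kr (X - Q) ⊓ Kr (X - P) : Submodule F (Fin n → F)) = d})
    (Nat.card (Sy F n)) (2 ^ n * q ^ e0 n (ρ i j))
    (8 ^ n * q ^ cN n (ρ i j) (ρ k j) (ρ k i) d) (8 ^ n * q ^ cN n (ρ i j) (ρ l j) (ρ l i) d')
    (fun _ _ => Set.mem_univ _) ?_ ?_ (by rw [Set.ncard_univ]) ?_ ?_ ?_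
  · refine h.trans ?_
    have := Nat.pow_le_pow_right (show 0 < q by omega) hE
    rw [pow_add, pow_add] at this
    rw [show (128 : ℕ) = 8 * 8 * 2 by norm_num, mul_pow, mul_pow]
    calc _ = 8 ^ n * 8 ^ n * 2 ^ n * Nat.card (Sy F n) * (q ^ e0 n (ρ i j) *
          q ^ cN n (ρ i j) (ρ k j) (ρ k i) d * q ^ cN n (ρ i j) (ρ l j) (ρ l i) d') := by ring
      _ ≤ _ := Nat.mul_le_mul_left _ this
  · rintro φ ⟨h1, _⟩
    exact h1 i j
  · rintro φ ⟨h1, h2⟩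
    exact ⟨h1 k j, h1 k i, congrArg Fin.val (Prod.ext_iff.1 h2).1⟩
  · rintro φ _
    exact rank_count _ _
  · rintro φ ⟨h1, _⟩
    have := cond_count (φ i) (φ j) (ρ k j) (ρ k i) d
    rwa [h1 i j] at this
  · rintro φ1 ⟨h1, _⟩
    have := cond_count (φ1 i) (φ1 j) (ρ l j) (ρ l i) d'
    rw [h1 i j] at this
    refine le_trans (last_inj _ _ i j k l hc φ1 ?_) this
    rintro φ ⟨a1, a2⟩ b1 b2 _
    refine ⟨b1 ▸ a1 l j, b2 ▸ a1 l i, ?_⟩
    rw [← b1, ← b2]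
    exact congrArg Fin.val (Prod.ext_iff.1 a2).2

end Vale.Agent.P050
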